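import Vale.Agent.P297Z.Gr.Dual

/-!
# The Hilbert polynomial and duality on the plane
-/

set_option linter.unusedSectionVars false

namespace Vale.Agent.P297Z.Gr

open MvPolynomial

variable {V : Type} [AddCommGroup V] [Module ℂ V] [Module T V] [IsScalarTower ℂ T V]

/-- The exponent with all entries equal to `e`. -/
noncomputable def dia (e : ℕ) : Fin 3 →₀ ℕ := Finsupp.equivFunOnFinite.symm fun _ => e

theorem dia_apply (e : ℕ) (i : Fin 3) : dia e i = e := rfl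

theorem dg_dia (e : ℕ) : dg (dia e) = 3 * e := by
  simp only [dg, dia_apply]
  ring

theorem coeff_pow_mul_zero {i : Fin 3} {s : Fin 3 →₀ ℕ} {e : ℕ} (h : s i < e) (f : T) :
    coeff s (X i ^ e * f) = 0 := by
  classical
  rw [X_pow_eq_monomial, coeff_monomial_mul', if_neg]
  rw [Finsupp.single_le_iff]
  omega

theorem coeff_pow_mul (i : Fin 3) (s : Fin 3 →₀ ℕ) (e : ℕ) (f : T) :
    coeff (Finsupp.single i e + s) (X i ^ e * f) = coeff s f := by
  rw [X_pow_eq_monomial, coeff_monomial_mul, one_mul]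

theorem coeff_dia_sum (e : ℕ) (g : Fin 3 → T) : coeff (dia e) (∑ i, X i ^ (e + 1) * g i) = 0 := by
  rw [coeff_sum]
  exact Finset.sum_eq_zero fun i _ => coeff_pow_mul_zero (by rw [dia_apply]; omega) _

theorem coeff_dia_add (e e' : ℕ) (f : T) :
    coeff (dia (e + e')) (X 0 ^ e' * (X 1 ^ e' * (X 2 ^ e' * f))) = coeff (dia e) f := by
  have h : dia (e + e') = Finsupp.single 0 e' + (Finsupp.single 1 e' +
      (Finsupp.single 2 e' + dia e)) := by
    ext i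
    fin_cases i <;> simp [dia_apply, add_comm]
  rw [h, coeff_pow_mul, coeff_pow_mul, coeff_pow_mul]

theorem coeff_dia_monomial {e : ℕ} {s : Fin 3 →₀ ℕ} (hs : s ≤ dia e) (f : T) :
    coeff (dia e) (monomial (dia e - s) 1 * f) = coeff s f := by
  have h : dia e = (dia e - s) + s := (tsub_add_cancel_of_le hs).symm
  conv_lhs => rw [h]
  rw [← h]
  nth_rewrite 1 [h]
  rw [coeff_monomial_mul, one_mul]

theorem dg_dia_sub {e : ℕ} {s : Fin 3 →₀ ℕ} (hs : s ≤ dia e) : dg (dia e - s) = 3 * e - dg s := by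
  have h := dg_add (dia e - s) s
  rw [tsub_add_cancel_of_le hs, dg_dia] at h
  omega

/-- The pairing is perfect, first half. -/
theorem pair_left {e : ℕ} {d : ℤ} {y : T} (hy : y ∈ Tz d)
    (h : ∀ u ∈ Tz (3 * e - d), coeff (dia e) (u * y) = 0) :
    ∃ g : Fin 3 → T, (∀ i, g i ∈ Tz (d - (e + 1 : ℕ))) ∧ y = ∑ i, X i ^ (e + 1) * g i := by
  obtain ⟨g, h1, -, h2⟩ := exists_pow_sum Set.univ (e + 1) hy (fun s hs => by
    by_contra hcon
    push Not at hcon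
    have h1 : s ≤ dia e := fun i => by
      have := hcon i trivial
      rw [dia_apply]
      omega
    apply hs
    rw [← coeff_dia_monomial h1]
    exact h _ (monomial_mem _ (by rw [dg_dia_sub h1, mem_Tz.1 hy s hs])))
  exact ⟨g, h1, h2⟩

/-- The pairing is perfect, second half. -/
theorem pair_right {e : ℕ} {d : ℤ} (hd : d ≤ e) (l : T →ₗ[ℂ] ℂ) :
    ∃ v ∈ Tz (3 * e - d), ∀ w ∈ Tz d, coeff (dia e) (w * v) = l w := by
  classical
  let A : Finset (Fin 3 →₀ ℕ) := (dg_finite d).toFinset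
  have hA : ∀ {s}, s ∈ A ↔ dg s = d := fun {s} => by simp [A]
  have hle : ∀ {s}, dg s = d → s ≤ dia e := fun {s} hs i => by
    rw [dia_apply]
    unfold dg at hs
    fin_cases i <;> simp <;> omega
  refine ⟨∑ s ∈ A, l (monomial s 1) • monomial (dia e - s) 1, sum_mem fun s hs =>
    Submodule.smul_mem _ _ (monomial_mem _ (by rw [dg_dia_sub (hle (hA.1 hs)), hA.1 hs])),
    fun w hw => ?_⟩
  have h1 : w = ∑ s ∈ A, coeff s w • monomial s (1 : ℂ) := by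
    conv_lhs => rw [w.as_sum]
    rw [Finset.sum_subset (s₂ := A)]
    · exact Finset.sum_congr rfl fun s _ => by rw [smul_monomial, smul_eq_mul, mul_one]
    · intro s hs
      exact hA.2 (mem_Tz.1 hw s (mem_support_iff.1 hs))
    · intro s _ hs
      rw [notMem_support_iff.1 hs, map_zero]
  conv_rhs => rw [h1]
  rw [map_sum, Finset.mul_sum, coeff_sum]
  refine Finset.sum_congr rfl fun s hs => ?_
  rw [mul_smul_comm, coeff_smul, mul_comm, coeff_dia_monomial (hle (hA.1 hs)), map_smul,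
    smul_eq_mul, smul_eq_mul, mul_comm]

/-- The powers of the variables form a regular sequence. -/
theorem koszul_pow {e : ℕ} {d : ℤ} {a b c : T} (ha : a ∈ Tz d) (hc : c ∈ Tz d)
    (h : X 2 ^ e * c - X 1 ^ e * b + X 0 ^ e * a = 0) :
    ∃ g₀ ∈ Tz (d - e), ∃ g₁ ∈ Tz (d - e), ∃ g₂ ∈ Tz (d - e), c = X 0 ^ e * g₁ - X 1 ^ e * g₀ ∧
      b = X 0 ^ e * g₂ - X 2 ^ e * g₀ ∧ a = X 1 ^ e * g₂ - X 2 ^ e * g₁ := by
  obtain ⟨g, h1, h2, h3⟩ := exists_pow_sum {0, 1} e hc (fun s hs => by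
    by_contra hcon
    push Not at hcon
    have h0 := hcon 0 (by simp)
    have h1 := hcon 1 (by simp)
    apply hs
    rw [← coeff_pow_mul 2 s e c, show X 2 ^ e * c = X 1 ^ e * b - X 0 ^ e * a by
      linear_combination h, coeff_sub, coeff_pow_mul_zero, coeff_pow_mul_zero, sub_zero]
    · simpa using h0
    · simpa using h1)
  rw [Fin.sum_univ_three, h2 2 (by simp), mul_zero, add_zero] at h3
  have h4 : a + X 2 ^ e * g 0 ∈ Tz d := add_mem ha (Tz_mul' (X_pow_mem 2 e) (h1 0) (by ring))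
  have h5 : X 0 ^ e * (a + X 2 ^ e * g 0) = X 1 ^ e * (b - X 2 ^ e * g 1) := by
    linear_combination h - X 2 ^ e * h3
  obtain ⟨r, h6, h7, h8⟩ := exists_pow_sum {1} e h4 (fun s hs => by
    refine ⟨1, rfl, ?_⟩
    by_contra hcon
    apply hs
    rw [← coeff_pow_mul 0 s e, h5, coeff_pow_mul_zero]
    simpa using hcon)
  rw [Fin.sum_univ_three, h7 0 (by simp), h7 2 (by simp), mul_zero, mul_zero, zero_add,
    add_zero] at h8
  refine ⟨-g 1, neg_mem (h1 1), g 0, h1 0, r 1, h6 1, by linear_combination h3, ?_,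
    by linear_combination h8⟩
  have h9 : (X 1 ^ e : T) ≠ 0 := pow_ne_zero _ (X_ne_zero 1)
  apply mul_left_cancel₀ h9
  linear_combination X 0 ^ e * h8 - h5

/-- The first cohomology group of the sheaf of `M (m)` vanishes, for the standard cover of the
plane. -/
def H1van (M : ℤ → Submodule ℂ V) (m : ℤ) : Prop :=
  ∀ e : ℕ, ∀ c₀₁ ∈ M (m + 2 * e), ∀ c₀₂ ∈ M (m + 2 * e), ∀ c₁₂ ∈ M (m + 2 * e),
    (X 2 ^ e : T) • c₀₁ - (X 1 ^ e : T) • c₀₂ + (X 0 ^ e : T) • c₁₂ = 0 →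
    ∃ e' : ℕ, ∃ g₀ ∈ M (m + (e + e' : ℕ)), ∃ g₁ ∈ M (m + (e + e' : ℕ)), ∃ g₂ ∈ M (m + (e + e' : ℕ)),
      (X 0 ^ e' * X 1 ^ e' : T) • c₀₁ = (X 0 ^ (e + e') : T) • g₁ - (X 1 ^ (e + e') : T) • g₀ ∧
      (X 0 ^ e' * X 2 ^ e' : T) • c₀₂ = (X 0 ^ (e + e') : T) • g₂ - (X 2 ^ (e + e') : T) • g₀ ∧
      (X 1 ^ e' * X 2 ^ e' : T) • c₁₂ = (X 1 ^ (e + e') : T) • g₂ - (X 2 ^ (e + e') : T) • g₁

theorem lc_comm {ι : Type} [Fintype ι] (u v : ι → T) : lc u v = lc v u := by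
  rw [lc_apply, lc_apply]
  simp only [smul_eq_mul, mul_comm]

theorem lc_single_left {ι : Type} [Fintype ι] [DecidableEq ι] (i : ι) (u : T) (v : ι → T) :
    lc (Pi.single i u : ι → T) v = u * v i := by
  rw [lc_apply, Finset.sum_eq_single i]
  · rw [Pi.single_eq_same, smul_eq_mul, mul_comm]
  · intro j _ hj
    rw [Pi.single_eq_of_ne hj, smul_zero]
  · intro h
    exact absurd (Finset.mem_univ i) h

theorem single_mem_Fr' {ι : Type} [DecidableEq ι] (a : ι → ℤ) (i : ι) {m : ℤ} {u : T}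
    (hu : u ∈ Tz (m - a i)) : (Pi.single i u : ι → T) ∈ Fr a m := by
  rw [mem_Fr]
  intro j
  by_cases h : j = i
  · subst h
    rwa [Pi.single_eq_same]
  · rw [Pi.single_eq_of_ne h]
    exact zero_mem _

theorem pair_left_Fr {ι : Type} [Fintype ι] {a : ι → ℤ} {e : ℕ} {m : ℤ} {y : ι → T}
    (hy : y ∈ Fr a (m + 3 * (e + 1 : ℕ)))
    (h : ∀ u ∈ Fr (fun i => 3 - a i) (-m), coeff (dia e) (lc u y) = 0) :
    ∃ g : Fin 3 → ι → T, (∀ k, g k ∈ Fr a (m + 2 * (e + 1 : ℕ))) ∧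
      y = ∑ k, (X k ^ (e + 1) : T) • g k := by
  classical
  choose g hg hg' using fun i => pair_left (e := e) (mem_Fr.1 hy i) fun u hu => by
    rw [← lc_single_left]
    refine h _ (single_mem_Fr' _ i ?_)
    rwa [show -m - (3 - a i) = 3 * e - (m + 3 * (e + 1 : ℕ) - a i) by push_cast; ring]
  refine ⟨fun k i => g i k, fun k => mem_Fr.2 fun i => ?_, funext fun i => ?_⟩
  · rw [show m + 2 * (e + 1 : ℕ) - a i = m + 3 * (e + 1 : ℕ) - a i - (e + 1 : ℕ) by ring]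
    exact hg i k
  · rw [Finset.sum_apply]
    exact hg' i

namespace Res

variable {M : ℤ → Submodule ℂ V} (R : Res M)

theorem lc_g_n (w : R.κ → T) : lc R.g (lc R.n w) = 0 := by
  rw [lc_lc]
  simp only [R.zero, lc_apply, smul_zero, Finset.sum_const_zero]

theorem h1van_of_surj (hM : Stab M) {m : ℤ} (h : Fr R.b' (-m) ≤ R.Im (-m)) : H1van M m := by
  intro e c₀₁ h01 c₀₂ h02 c₁₂ h12 hc
  rcases e with _ | e
  · refine ⟨0, 0, zero_mem _, c₀₁, by simpa using h01, c₀₂, by simpa using h02, by simp, by simp, ?_⟩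
    simp only [pow_zero, one_smul, add_zero, mul_one] at hc ⊢
    rw [← sub_eq_zero, ← hc]
    abel
  obtain ⟨y₂, hy₂, rfl⟩ := R.gen.surj _ _ h01
  obtain ⟨y₁, hy₁, rfl⟩ := R.gen.surj _ _ h02
  obtain ⟨y₀, hy₀, rfl⟩ := R.gen.surj _ _ h12
  have hF : ∀ (i : Fin 3) {z : R.ι → T}, z ∈ Fr R.a (m + 2 * (e + 1 : ℕ)) →
      (X i ^ (e + 1) : T) • z ∈ Fr R.a (m + 3 * (e + 1 : ℕ)) :=
    fun i z hz => (stab_Fr R.a).smul (X_pow_mem i (e + 1)) hz (by ring)
  obtain ⟨v, hv, hvy⟩ := R.exact _ _ (add_mem (sub_mem (hF 2 hy₂) (hF 1 hy₁)) (hF 0 hy₀))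
    (by simpa only [map_add, map_sub, map_smul] using hc)
  obtain ⟨w, hw, hvw⟩ := pair_left_Fr hv fun u hu => by
    obtain ⟨u', -, rfl⟩ := h hu
    change coeff _ (lc (lc R.col u') v) = 0
    rw [← R.lc_tr, hvy]
    simp only [map_add, map_sub, map_smul, smul_eq_mul, coeff_add, coeff_sub]
    rw [coeff_pow_mul_zero, coeff_pow_mul_zero, coeff_pow_mul_zero] <;> simp [dia_apply]
  have hn := fun k => lc_mem (stab_Fr R.a) R.hn (hw k)
  have h1 : (X 2 ^ (e + 1) : T) • (y₂ - lc R.n (w 2)) - (X 1 ^ (e + 1) : T) • (y₁ + lc R.n (w 1)) +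
      (X 0 ^ (e + 1) : T) • (y₀ - lc R.n (w 0)) = 0 := by
    rw [hvw, Fin.sum_univ_three] at hvy
    simp only [map_add, map_smul] at hvy
    simp only [smul_add, smul_sub]
    rw [← sub_eq_zero] at hvy
    rw [← neg_eq_zero, ← hvy]
    abel
  choose g₀ hg₀ g₁ hg₁ g₂ hg₂ e₂ e₁ e₀ using fun i => koszul_pow
    (mem_Fr.1 (sub_mem hy₀ (hn 0)) i) (mem_Fr.1 (sub_mem hy₂ (hn 2)) i) (congrFun h1 i)
  have hG : ∀ {z : R.ι → T}, (∀ i, z i ∈ Tz (m + 2 * (e + 1 : ℕ) - R.a i - (e + 1 : ℕ))) →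
      lc R.g z ∈ M (m + (e + 1 + 0 : ℕ)) := fun {z} hz =>
    lc_mem hM R.gen.mem (mem_Fr.2 fun i => by
      rw [show m + (e + 1 + 0 : ℕ) - R.a i = m + 2 * (e + 1 : ℕ) - R.a i - (e + 1 : ℕ) by
        push_cast; ring]
      exact hz i)
  have f₂ : y₂ - lc R.n (w 2) = (X 0 ^ (e + 1) : T) • g₁ - (X 1 ^ (e + 1) : T) • g₀ := funext e₂
  have f₁ : y₁ + lc R.n (w 1) = (X 0 ^ (e + 1) : T) • g₂ - (X 2 ^ (e + 1) : T) • g₀ := funext e₁
  have f₀ : y₀ - lc R.n (w 0) = (X 1 ^ (e + 1) : T) • g₂ - (X 2 ^ (e + 1) : T) • g₁ := funext e₀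
  have k₂ := congrArg (lc R.g) f₂
  have k₁ := congrArg (lc R.g) f₁
  have k₀ := congrArg (lc R.g) f₀
  simp only [map_add, map_sub, map_smul, R.lc_g_n, sub_zero, add_zero] at k₂ k₁ k₀
  refine ⟨0, _, hG hg₀, _, hG hg₁, _, hG hg₂, ?_, ?_, ?_⟩
  · simpa using k₂
  · simpa using k₁
  · simpa using k₀

theorem surj_of_h1van (hM : Stab M) {m : ℤ} (h : H1van M m) : Fr R.b' (-m) ≤ R.Im (-m) := by
  classical
  intro w₀ hw₀
  by_contra hcon
  obtain ⟨l, hl0, hl⟩ := Submodule.exists_dual_map_eq_bot_of_notMem hcon inferInstance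
  have hl' : ∀ u ∈ Fr R.a' (-m), l (lc R.col u) = 0 := fun u hu => by
    have h1 : l (lc R.col u) ∈ (R.Im (-m)).map l := ⟨_, ⟨u, hu, rfl⟩, rfl⟩
    rwa [hl] at h1
  obtain ⟨D, hD⟩ := (Set.finite_range fun j => -m - R.b' j).bddAbove
  let e : ℕ := D.toNat
  have he : ∀ j, -m - R.b' j ≤ e := fun j => (hD ⟨j, rfl⟩).trans (Int.self_le_toNat D)
  choose v hv hv' using fun j => pair_right (he j) (l ∘ₗ LinearMap.single ℂ (fun _ => T) j)
  have hv1 : v ∈ Fr R.b (m + 3 * (e + 1 : ℕ)) := mem_Fr.2 fun j => by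
    rw [show m + 3 * (e + 1 : ℕ) - R.b j = 3 * e - (-m - R.b' j) by unfold b'; push_cast; ring]
    exact hv j
  have hv2 : ∀ w ∈ Fr R.b' (-m), coeff (dia e) (lc w v) = l w := by
    intro w hw
    rw [lc_comm, lc_apply, coeff_sum]
    conv_rhs => rw [← Finset.univ_sum_single w, map_sum]
    exact Finset.sum_congr rfl fun j _ => hv' j _ (mem_Fr.1 hw j)
  obtain ⟨y, hy, hvy⟩ := pair_left_Fr (lc_mem (stab_Fr R.a) R.hn hv1) fun u hu => by
    rw [R.lc_tr, hv2 (lc R.col u) (R.Im_le _ ⟨u, hu, rfl⟩), hl' u hu]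
  have hM' := fun k => lc_mem hM R.gen.mem (hy k)
  obtain ⟨e', g₀, hg₀, g₁, hg₁, g₂, hg₂, e₂, e₁, e₀⟩ := h (e + 1) _ (hM' 2) _ (neg_mem (hM' 1)) _
    (hM' 0) (by
      have h1 := R.lc_g_n v
      rw [hvy, Fin.sum_univ_three] at h1
      simp only [map_add, map_smul] at h1
      rw [← h1, smul_neg]
      abel)
  obtain ⟨G₀, hG₀, rfl⟩ := R.gen.surj _ _ hg₀
  obtain ⟨G₁, hG₁, rfl⟩ := R.gen.surj _ _ hg₁
  obtain ⟨G₂, hG₂, rfl⟩ := R.gen.surj _ _ hg₂
  have hF : ∀ (i : Fin 3) {z : R.ι → T}, z ∈ Fr R.a (m + (e + 1 + e' : ℕ)) →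
      (X i ^ (e + 1 + e') : T) • z ∈ Fr R.a (m + 2 * (e + 1 + e' : ℕ)) :=
    fun i z hz => (stab_Fr R.a).smul (X_pow_mem i _) hz (by ring)
  have hF' : ∀ (i j k : Fin 3), (X i ^ e' * X j ^ e' : T) • y k ∈
      Fr R.a (m + 2 * (e + 1 + e' : ℕ)) :=
    fun i j k => (stab_Fr R.a).smul (Tz_mul (X_pow_mem i _) (X_pow_mem j _)) (hy k)
      (by push_cast; ring)
  obtain ⟨w₂, -, f₂⟩ := R.exact _ _ (sub_mem (hF' 0 1 2) (sub_mem (hF 0 hG₁) (hF 1 hG₀)))
    (by simp only [map_sub, map_smul]; rw [e₂, sub_self])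
  obtain ⟨w₁, -, f₁⟩ := R.exact _ _ (add_mem (hF' 0 2 1) (sub_mem (hF 0 hG₂) (hF 2 hG₀)))
    (by simp only [map_add, map_sub, map_smul]; rw [← e₁, smul_neg, add_neg_cancel])
  obtain ⟨w₃, -, f₀⟩ := R.exact _ _ (sub_mem (hF' 1 2 0) (sub_mem (hF 1 hG₂) (hF 2 hG₁)))
    (by simp only [map_sub, map_smul]; rw [e₀, sub_self])
  have h1 : (X 0 ^ e' : T) • (X 1 ^ e' : T) • (X 2 ^ e' : T) • v = (X 0 ^ (e + 1 + e') : T) • w₃ +
      (X 1 ^ (e + 1 + e') : T) • w₁ + (X 2 ^ (e + 1 + e') : T) • w₂ := R.inj (by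
    simp only [map_add, map_smul]
    rw [f₀, f₁, f₂, hvy, Fin.sum_univ_three]
    funext i
    simp only [Pi.add_apply, Pi.sub_apply, Pi.smul_apply, smul_eq_mul]
    ring)
  apply hl0
  have h2 := congrArg (fun z => coeff (dia (e + e')) (lc w₀ z)) h1
  simp only [map_add, map_smul, smul_eq_mul, coeff_add] at h2
  rw [coeff_dia_add, hv2 w₀ hw₀, coeff_pow_mul_zero, coeff_pow_mul_zero, coeff_pow_mul_zero] at h2
  · simpa using h2
  all_goals
    rw [dia_apply]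
    omega

theorem finrank_M (hM : Stab M) (m : ℤ) :
    (Module.finrank ℂ (M m) : ℤ) = ∑ i, tt (m - R.a i) - ∑ j, tt (m - R.b j) := by
  let π : Fr R.a m →ₗ[ℂ] V := ((lc R.g).restrictScalars ℂ).domRestrict (Fr R.a m)
  let φ : Fr R.b m →ₗ[ℂ] Fr R.a m :=
    (((lc R.n).restrictScalars ℂ).domRestrict (Fr R.b m)).codRestrict (Fr R.a m)
      fun v => lc_mem (stab_Fr R.a) R.hn v.2
  have h1 : LinearMap.range π = M m := by
    ext x
    constructor
    · rintro ⟨v, rfl⟩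
      exact lc_mem hM R.gen.mem v.2
    · intro hx
      obtain ⟨v, hv, rfl⟩ := R.gen.surj m x hx
      exact ⟨⟨v, hv⟩, rfl⟩
  have h2 : LinearMap.ker π = LinearMap.range φ := by
    ext v
    constructor
    · intro hv
      obtain ⟨w, hw, h3⟩ := R.exact m v.1 v.2 hv
      exact ⟨⟨w, hw⟩, Subtype.ext h3⟩
    · rintro ⟨w, rfl⟩
      exact R.lc_g_n w.1
  have h3 : Function.Injective φ := fun v w h => Subtype.ext (R.inj (congrArg Subtype.val h))
  have h4 := π.finrank_range_add_finrank_ker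
  rw [h1, h2, LinearMap.finrank_range_of_inj h3] at h4
  rw [← finrank_Fr, ← finrank_Fr, ← h4]
  push_cast
  ring

theorem finrank_Kr (m : ℤ) :
    (Module.finrank ℂ (R.Kr m) : ℤ) + Module.finrank ℂ (R.Im m) = ∑ i, tt (m - R.a' i) := by
  let φ : Fr R.a' m →ₗ[ℂ] (R.κ → T) := ((lc R.col).restrictScalars ℂ).domRestrict (Fr R.a' m)
  have h1 : LinearMap.range φ = R.Im m := LinearMap.range_domRestrict _ _
  have h2 : R.Kr m = (LinearMap.ker φ).map (Fr R.a' m).subtype := by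
    ext v
    constructor
    · rintro ⟨hv, h0⟩
      exact ⟨⟨v, hv⟩, h0, rfl⟩
    · rintro ⟨v, hv, rfl⟩
      exact ⟨v.2, hv⟩
  have h4 := φ.finrank_range_add_finrank_ker
  rw [h1] at h4
  rw [h2, Submodule.finrank_map_subtype_eq, ← finrank_Fr, ← h4]
  push_cast
  ring

/-- The Hilbert polynomial. -/
noncomputable def chi (m : ℤ) : ℤ :=
  ∑ i, (tt (m - R.a i) + tt (-m - R.a' i)) - ∑ j, (tt (m - R.b j) + tt (-m - R.b' j))

theorem two_chi (m : ℤ) : 2 * R.chi m =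
    ∑ i, (m - R.a i + 1) * (m - R.a i + 2) - ∑ j, (m - R.b j + 1) * (m - R.b j + 2) := by
  rw [chi, mul_sub, Finset.mul_sum, Finset.mul_sum]
  congr 1
  · refine Finset.sum_congr rfl fun i _ => ?_
    rw [← tt_dual, show -m - R.a' i = -(m - R.a i) - 3 by unfold a'; ring]
  · refine Finset.sum_congr rfl fun i _ => ?_
    rw [← tt_dual, show -m - R.b' i = -(m - R.b i) - 3 by unfold b'; ring]

theorem chi_quad : ∃ A B C : ℤ, ∀ m, 2 * R.chi m = A * m ^ 2 + B * m + C := by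
  refine ⟨∑ _i : R.ι, 1 - ∑ _j : R.κ, 1, ∑ i, (3 - 2 * R.a i) - ∑ j, (3 - 2 * R.b j),
    ∑ i, (1 - R.a i) * (2 - R.a i) - ∑ j, (1 - R.b j) * (2 - R.b j), fun m => ?_⟩
  have h : ∀ c : ℤ, (m - c + 1) * (m - c + 2) = 1 * m ^ 2 + (3 - 2 * c) * m + (1 - c) * (2 - c) :=
    fun c => by ring
  rw [two_chi]
  simp only [h, Finset.sum_add_distrib, sub_mul, Finset.sum_mul]
  ring

theorem chi_eq (hM : Stab M) (m : ℤ) : R.chi m = Module.finrank ℂ (M m) +
    Module.finrank ℂ (Dual hM (-m)) -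
      (Module.finrank ℂ (Fr R.b' (-m)) - Module.finrank ℂ (R.Im (-m))) := by
  rw [R.finrank_M hM, R.finrank_dual, finrank_Fr, chi, Finset.sum_add_distrib,
    Finset.sum_add_distrib, ← R.finrank_Kr]
  ring

theorem chi_large (hM : Stab M) : ∃ m₀ : ℤ, ∀ m, m₀ ≤ m → R.chi m = Module.finrank ℂ (M m) := by
  obtain ⟨A, hA⟩ := (Set.finite_range R.a).bddAbove
  obtain ⟨B, hB⟩ := (Set.finite_range R.b).bddAbove
  refine ⟨max A B, fun m hm => ?_⟩
  rw [R.finrank_M hM, chi]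
  congr 1
  · refine Finset.sum_congr rfl fun i _ => ?_
    have h1 : R.a i ≤ A := hA ⟨i, rfl⟩
    have h2 := le_max_left A B
    rw [tt_neg (d := -m - R.a' i) (by unfold a'; omega), add_zero]
  · refine Finset.sum_congr rfl fun i _ => ?_
    have h1 : R.b i ≤ B := hB ⟨i, rfl⟩
    have h2 := le_max_right A B
    rw [tt_neg (d := -m - R.b' i) (by unfold b'; omega), add_zero]

theorem chi_eq_iff (hM : Stab M) (m : ℤ) :
    R.chi m = Module.finrank ℂ (M m) + Module.finrank ℂ (Dual hM (-m)) ↔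
      Fr R.b' (-m) ≤ R.Im (-m) := by
  rw [R.chi_eq hM]
  constructor
  · intro h
    exact (Submodule.eq_of_le_of_finrank_eq (R.Im_le (-m)) (by omega)).ge
  · intro h
    rw [le_antisymm h (R.Im_le (-m))]
    ring

end Res

/-- The Hilbert polynomial of a finitely generated graded module whose sheaf is locally free. -/
theorem exists_chi {M : ℤ → Submodule ℂ V} (hM : Stab M) (hF : FG M) (h : RegAll M) :
    ∃ χ : ℤ → ℤ, (∃ A B C : ℤ, ∀ m, 2 * χ m = A * m ^ 2 + B * m + C) ∧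
      (∃ m₀ : ℤ, ∀ m, m₀ ≤ m → χ m = Module.finrank ℂ (M m)) ∧
      (∃ m₀ : ℤ, ∀ m, m₀ ≤ m → χ (-m) = Module.finrank ℂ (Dual hM m)) ∧
      (∀ m, χ m ≤ Module.finrank ℂ (M m) + Module.finrank ℂ (Dual hM (-m))) ∧
      ∀ m, H1van M m ↔ χ m = Module.finrank ℂ (M m) + Module.finrank ℂ (Dual hM (-m)) := by
  obtain ⟨R⟩ := exists_res hM hF h.reg01
  refine ⟨R.chi, R.chi_quad, R.chi_large hM, ?_, fun m => ?_, fun m => ?_⟩
  · obtain ⟨m₀, h0⟩ := R.exists_surj hM h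
    obtain ⟨lo, hlo⟩ := hF.exists_bot
    refine ⟨max m₀ (1 - lo), fun m hm => ?_⟩
    have h1 := le_max_left m₀ (1 - lo)
    have h2 := le_max_right m₀ (1 - lo)
    have h3 := (R.chi_eq_iff hM (-m)).2 (h0 _ (by omega))
    rw [hlo (-m) (by omega), finrank_bot, neg_neg] at h3
    simpa using h3
  · have h1 := Submodule.finrank_mono (R.Im_le (-m))
    rw [R.chi_eq hM]
    omega
  · rw [R.chi_eq_iff hM]
    exact ⟨R.surj_of_h1van hM, R.h1van_of_surj hM⟩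

end Vale.Agent.P297Z.Gr
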