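import Vale.Agent.P297Z.Gr.Res

/-!
# The dual graded module `Hom_T(M, T(-3))`
-/

set_option linter.unusedSectionVars false

namespace Vale.Agent.P297Z.Gr

open MvPolynomial

variable {V : Type} [AddCommGroup V] [Module ℂ V] [Module T V] [IsScalarTower ℂ T V]

/-- The part of degree `m` of `Hom_T(M, T(-3))`. -/
noncomputable def Dual {M : ℤ → Submodule ℂ V} (hM : Stab M) (m : ℤ) :
    Submodule ℂ (∀ j, M j →ₗ[ℂ] T) where
  carrier := {ψ | (∀ j x, ψ j x ∈ Tz (j + m - 3)) ∧ Compat hM ψ}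
  zero_mem' := ⟨fun _ _ => zero_mem _, fun _ _ _ => by simp⟩
  add_mem' := by
    rintro ψ φ ⟨h1, h2⟩ ⟨h3, h4⟩
    refine ⟨fun j x => add_mem (h1 j x) (h3 j x), fun i j x => ?_⟩
    simp only [Pi.add_apply, LinearMap.add_apply, smul_add]
    rw [h2 i j x, h4 i j x]
  smul_mem' := by
    rintro c ψ ⟨h1, h2⟩
    refine ⟨fun j x => Submodule.smul_mem _ c (h1 j x), fun i j x => ?_⟩
    simp only [Pi.smul_apply, LinearMap.smul_apply]
    rw [h2 i j x, csmul_comm]

theorem mem_Dual {M : ℤ → Submodule ℂ V} {hM : Stab M} {m : ℤ} {ψ : ∀ j, M j →ₗ[ℂ] T} :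
    ψ ∈ Dual hM m ↔ (∀ j x, ψ j x ∈ Tz (j + m - 3)) ∧ Compat hM ψ := Iff.rfl

theorem lc_lc {ι κ : Type} [Fintype ι] [Fintype κ] (g : ι → V) (n : κ → ι → T) (w : κ → T) :
    lc g (lc n w) = lc (fun j => lc g (n j)) w := by
  rw [lc_apply n, map_sum, lc_apply (fun j => lc g (n j))]
  simp only [map_smul]

/-- Every point of the plane is cut out by a regular sequence. -/
def RegAll (M : ℤ → Submodule ℂ V) : Prop :=
  ∀ i j k : Fin 3, i ≠ j → i ≠ k → j ≠ k → ∀ α β : ℂ,
    Reg2 M (X j - C α * X i) (X k - C β * X i)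

theorem RegAll.reg01 {M : ℤ → Submodule ℂ V} (h : RegAll M) : Reg2 M (X 0) (X 1) := by
  simpa using h 2 0 1 (by decide) (by decide) (by decide) 0 0

theorem lin_mem (i j : Fin 3) (α : ℂ) : (X j - C α * X i : T) ∈ Tz 1 :=
  sub_mem (X_mem j) (Tz_mul' (C_mem α) (X_mem i) (by ring))

/-- Forms which vanish at a point. -/
theorem eval_split {p : Fin 3 → ℂ} {l₀ l₁ l₂ : T} (h0 : l₀ ∈ Tz 1)
    (hX : ∀ i, ∃ α β : ℂ, X i = C (p i) * l₀ + C α * l₁ + C β * l₂) (n : ℕ) :
    ∀ f ∈ Tz n, ∃ a ∈ Tz (n - 1), ∃ b ∈ Tz (n - 1),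
      f = C (eval p f) * l₀ ^ n + l₁ * a + l₂ * b := by
  induction n with
  | zero =>
    intro f hf
    refine ⟨0, zero_mem _, 0, zero_mem _, ?_⟩
    rw [eq_C hf]
    simp
  | succ n ih =>
    intro f hf
    obtain ⟨g, hg, rfl⟩ := exists_X_sum (by omega) hf
    have hg' : ∀ i, g i ∈ Tz n := fun i => by simpa using hg i
    choose a ha b hb hab using fun i => ih (g i) (hg' i)
    choose α β hαβ using hX
    have hl : ∀ c : ℂ, C c * l₀ ^ n ∈ Tz n := fun c =>
      Tz_mul' (C_mem c) (pow_mem' h0 n) (by ring)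
    refine ⟨∑ i, (X i * a i + C (α i) * (C (eval p (g i)) * l₀ ^ n)), sum_mem fun i _ => add_mem
      (Tz_mul' (X_mem i) (ha i) (by push_cast; ring))
      (Tz_mul' (C_mem _) (hl _) (by push_cast; ring)),
      ∑ i, (X i * b i + C (β i) * (C (eval p (g i)) * l₀ ^ n)), sum_mem fun i _ => add_mem
      (Tz_mul' (X_mem i) (hb i) (by push_cast; ring))
      (Tz_mul' (C_mem _) (hl _) (by push_cast; ring)), ?_⟩
    rw [map_sum, map_sum, Finset.sum_mul, Finset.mul_sum, Finset.mul_sum, ← Finset.sum_add_distrib,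
      ← Finset.sum_add_distrib]
    refine Finset.sum_congr rfl fun i _ => ?_
    rw [map_mul, eval_X, map_mul]
    linear_combination X i * hab i + C (eval p (g i)) * l₀ ^ n * hαβ i

theorem exists_forms {M : ℤ → Submodule ℂ V} (h : RegAll M) {p : Fin 3 → ℂ} (hp : p ≠ 0) :
    ∃ l₀ ∈ Tz 1, ∃ l₁ ∈ Tz 1, ∃ l₂ ∈ Tz 1, eval p l₀ = 1 ∧ eval p l₁ = 0 ∧ eval p l₂ = 0 ∧
      Reg2 M l₁ l₂ ∧ ∀ i, ∃ α β : ℂ, X i = C (p i) * l₀ + C α * l₁ + C β * l₂ := by
  obtain ⟨i, hi⟩ := Function.ne_iff.1 hp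
  have hi' : p i ≠ 0 := hi
  obtain ⟨j, k, hij, hik, hjk, hall⟩ : ∃ j k : Fin 3, i ≠ j ∧ i ≠ k ∧ j ≠ k ∧
      ∀ l, l = i ∨ l = j ∨ l = k := by
    clear hi hi'
    revert i
    decide
  have hC : (C (p i) * C (p i)⁻¹ : T) = 1 := by
    rw [← C_mul, mul_inv_cancel₀ hi', C_1]
  refine ⟨C (p i)⁻¹ * X i, Tz_mul' (C_mem _) (X_mem i) (by ring), _, lin_mem i j (p j / p i), _,
    lin_mem i k (p k / p i), ?_, ?_, ?_, h i j k hij hik hjk _ _, fun l => ?_⟩
  · simp [hi']
  · simp [hi']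
  · simp [hi']
  · rcases hall l with rfl | rfl | rfl
    · refine ⟨0, 0, ?_⟩
      rw [← mul_assoc, hC]
      simp
    · refine ⟨1, 0, ?_⟩
      rw [div_eq_mul_inv, C_mul]
      simp only [C_1, C_0]
      ring
    · refine ⟨0, 1, ?_⟩
      rw [div_eq_mul_inv (p l), C_mul]
      simp only [C_1, C_0]
      ring

namespace Res

variable {M : ℤ → Submodule ℂ V} (R : Res M)

/-- The degrees of the generators of the dual of `F₀`. -/
def a' (i : R.ι) : ℤ := 3 - R.a i

/-- The degrees of the generators of the dual of `F₁`. -/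
def b' (j : R.κ) : ℤ := 3 - R.b j

/-- The columns of the matrix of the relations. -/
def col (i : R.ι) (j : R.κ) : T := R.n j i

theorem col_mem (i : R.ι) : R.col i ∈ Fr R.b' (R.a' i) := by
  rw [mem_Fr]
  intro j
  rw [show R.a' i - R.b' j = R.b j - R.a i by unfold a' b'; ring]
  exact mem_Fr.1 (R.hn j) i

theorem tr_apply (u : R.ι → T) (j : R.κ) : lc R.col u j = lc u (R.n j) := by
  rw [lc_apply, lc_apply, Finset.sum_apply]
  simp only [Pi.smul_apply, smul_eq_mul, col, mul_comm]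

theorem lc_tr (u : R.ι → T) (w : R.κ → T) : lc u (lc R.n w) = lc (lc R.col u) w := by
  rw [lc_lc]
  congr 2
  funext j
  exact (R.tr_apply u j).symm

/-- The kernel of the transposed matrix. -/
noncomputable def Kr (m : ℤ) : Submodule ℂ (R.ι → T) :=
  Fr R.a' m ⊓ LinearMap.ker ((lc R.col).restrictScalars ℂ)

/-- The image of the transposed matrix. -/
noncomputable def Im (m : ℤ) : Submodule ℂ (R.κ → T) :=
  (Fr R.a' m).map ((lc R.col).restrictScalars ℂ)

theorem Im_le (m : ℤ) : R.Im m ≤ Fr R.b' m := by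
  rintro _ ⟨u, hu, rfl⟩
  exact lc_mem (stab_Fr _) R.col_mem hu

theorem stab_Im : Stab R.Im := by
  rintro i m _ ⟨u, hu, rfl⟩
  exact ⟨(X i : T) • u, stab_Fr _ i m u hu, map_smul (lc R.col) _ _⟩

/-- The values on the generators. -/
noncomputable def ev (hM : Stab M) (m : ℤ) : Dual hM m →ₗ[ℂ] R.Kr m where
  toFun ψ := ⟨fun i => ψ.1 (R.a i) ⟨R.g i, R.gen.mem i⟩, mem_Fr.2 fun i => by
    rw [show m - R.a' i = R.a i + m - 3 by unfold a'; ring]
    exact ψ.2.1 _ _, by
    funext j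
    change lc R.col _ j = 0
    rw [R.tr_apply, ← ψ.2.2.lc R.gen.mem (R.hn j)]
    have h : (⟨lc R.g (R.n j), lc_mem hM R.gen.mem (R.hn j)⟩ : M (R.b j)) = 0 :=
      Subtype.ext (R.zero j)
    rw [h, map_zero]⟩
  map_add' _ _ := rfl
  map_smul' _ _ := rfl

theorem ev_bijective (hM : Stab M) (m : ℤ) : Function.Bijective (R.ev hM m) := by
  constructor
  · rw [injective_iff_map_eq_zero]
    intro ψ hψ
    apply Subtype.ext
    funext j
    apply LinearMap.ext
    rintro ⟨x, hx⟩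
    obtain ⟨v, hv, rfl⟩ := R.gen.surj j x hx
    have h1 : (fun i => ψ.1 (R.a i) ⟨R.g i, R.gen.mem i⟩) = 0 := congrArg Subtype.val hψ
    rw [ψ.2.2.lc R.gen.mem hv, h1, lc_apply]
    simp
  · rintro ⟨u, hu, hu0⟩
    have hu1 : lc R.col u = 0 := hu0
    let π : ∀ j, Fr R.a j →ₗ[ℂ] M j := fun j =>
      (((lc R.g).restrictScalars ℂ).domRestrict (Fr R.a j)).codRestrict (M j)
        fun v => lc_mem hM R.gen.mem v.2
    have hπ : ∀ j, LinearMap.range (π j) = ⊤ := by
      intro j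
      rw [LinearMap.range_eq_top]
      rintro ⟨x, hx⟩
      obtain ⟨v, hv, rfl⟩ := R.gen.surj j x hx
      exact ⟨⟨v, hv⟩, rfl⟩
    choose s hs using fun j => (π j).exists_rightInverse_of_surjective (hπ j)
    let ψ : ∀ j, M j →ₗ[ℂ] T := fun j =>
      ((lc u).restrictScalars ℂ) ∘ₗ (Fr R.a j).subtype ∘ₗ s j
    have hψ : ∀ j v (hv : v ∈ Fr R.a j) (h : lc R.g v ∈ M j), ψ j ⟨lc R.g v, h⟩ = lc u v := by
      intro j v hv h
      have h1 : lc R.g (s j ⟨lc R.g v, h⟩).1 = lc R.g v :=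
        congrArg Subtype.val (LinearMap.congr_fun (hs j) ⟨lc R.g v, h⟩)
      obtain ⟨w, -, h2⟩ := R.exact j _ (sub_mem (s j ⟨lc R.g v, h⟩).2 hv)
        (by rw [map_sub, h1, sub_self])
      have h3 := R.lc_tr u w
      rw [h2, hu1, map_sub, lc_apply (0 : R.κ → T)] at h3
      simp only [Pi.zero_apply, smul_zero, Finset.sum_const_zero] at h3
      exact sub_eq_zero.1 h3
    have hu2 : ∀ i, u i ∈ Tz (R.a i + (m - 3)) := fun i => by
      rw [show R.a i + (m - 3) = m - R.a' i by unfold a'; ring]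
      exact mem_Fr.1 hu i
    refine ⟨⟨ψ, fun j x => ?_, fun i j x => ?_⟩, ?_⟩
    · obtain ⟨x, hx⟩ := x
      obtain ⟨v, hv, rfl⟩ := R.gen.surj j x hx
      rw [hψ j v hv, lc_apply]
      exact sum_mem fun i _ => Tz_mul' (mem_Fr.1 hv i) (hu2 i) (by ring)
    · obtain ⟨x, hx⟩ := x
      obtain ⟨v, hv, rfl⟩ := R.gen.surj j x hx
      have h1 := hψ (j + 1) _ (stab_Fr _ i j v hv) (by
        rw [map_smul]
        exact hM i j _ hx)
      simp only [map_smul] at h1
      rw [hψ j v hv, ← h1]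
    · classical
      apply Subtype.ext
      funext i
      have h1 := hψ (R.a i) _ (single_mem_Fr R.a i) (by
        rw [lc_single]
        exact R.gen.mem i)
      simp only [lc_single] at h1
      exact h1

theorem finrank_dual (hM : Stab M) (m : ℤ) :
    Module.finrank ℂ (Dual hM m) = Module.finrank ℂ (R.Kr m) :=
  (LinearEquiv.ofBijective _ (R.ev_bijective hM m)).finrank_eq

include R in
theorem finite_dual (hM : Stab M) (m : ℤ) : Module.Finite ℂ (Dual hM m) := by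
  have : Module.Finite ℂ (R.Kr m) := Submodule.finiteDimensional_of_le inf_le_left
  exact Module.Finite.equiv (LinearEquiv.ofBijective _ (R.ev_bijective hM m)).symm

/-- The matrix of the relations is injective at every point of the plane. -/
theorem fibre_inj (hM : Stab M) (h : RegAll M) {p : Fin 3 → ℂ} (hp : p ≠ 0) (c : R.κ → ℂ)
    (hc : ∀ i, ∑ j, c j * eval p (R.n j i) = 0) : c = 0 := by
  obtain ⟨l₀, h0, l₁, h1, l₂, h2, e0, e1, e2, hreg, hX⟩ := exists_forms h hp
  obtain ⟨D, hD⟩ := (Set.finite_range R.b).bddAbove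
  let v : R.κ → T := fun j => C (c j) * l₀ ^ (D - R.b j).toNat
  have hv : v ∈ Fr R.b D := mem_Fr.2 fun j => Tz_mul' (C_mem _) (pow_mem' h0 _) (by
    have : R.b j ≤ D := hD ⟨j, rfl⟩
    omega)
  have hev : ∀ j, eval p (v j) = c j := fun j => by simp [v, e0]
  have hy := lc_mem (stab_Fr R.a) R.hn hv
  have h3 : ∀ i, ∃ a ∈ Tz (D - 1 - R.a i), ∃ b ∈ Tz (D - 1 - R.a i),
      lc R.n v i = l₁ * a + l₂ * b := by
    intro i
    have h4 := mem_Fr.1 hy i
    rcases lt_or_ge (D - R.a i) 0 with h5 | h5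
    · exact ⟨0, zero_mem _, 0, zero_mem _, by rw [eq_zero_of_neg h5 h4]; simp⟩
    · obtain ⟨k, hk⟩ := Int.eq_ofNat_of_zero_le h5
      rw [hk] at h4
      obtain ⟨a, ha, b, hb, h6⟩ := eval_split h0 hX k _ h4
      have h7 : eval p (lc R.n v i) = 0 := by
        rw [lc_apply, Finset.sum_apply, map_sum, ← hc i]
        simp only [Pi.smul_apply, smul_eq_mul, map_mul, hev]
      rw [h7, C_0, zero_mul, zero_add] at h6
      rw [show D - 1 - R.a i = k - 1 by omega]
      exact ⟨a, ha, b, hb, h6⟩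
  choose a ha b hb hab using h3
  have ha' : a ∈ Fr R.a (D - 1) := mem_Fr.2 ha
  have hb' : b ∈ Fr R.a (D - 1) := mem_Fr.2 hb
  have h4 : lc R.n v = l₁ • a + l₂ • b := funext hab
  obtain ⟨r, hr, h5, h6⟩ := hreg.syz hM h2 (lc_mem hM R.gen.mem ha') (lc_mem hM R.gen.mem hb') (by
    rw [← map_smul, ← map_smul, ← map_add, ← h4, lc_lc]
    simp only [R.zero, lc_apply, smul_zero, Finset.sum_const_zero])
  obtain ⟨ρ, hρ, rfl⟩ := R.gen.surj _ r hr
  obtain ⟨a₁, -, h7⟩ := R.exact _ _ (add_mem ha' ((stab_Fr _).smul h2 hρ (by ring)))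
    (by rw [map_add, map_smul, h6, neg_add_cancel])
  obtain ⟨b₁, -, h8⟩ := R.exact _ _ (sub_mem hb' ((stab_Fr _).smul h1 hρ (by ring)))
    (by rw [map_sub, map_smul, h5, sub_self])
  have h9 : v = l₁ • a₁ + l₂ • b₁ := R.inj (by
    rw [map_add, map_smul, map_smul, h7, h8, h4, smul_add, smul_sub, smul_comm l₁ l₂ ρ]
    abel)
  funext j
  rw [← hev j, h9]
  simp [e1, e2]

/-- The cokernel of the transposed matrix vanishes in large degrees. -/
theorem exists_surj (hM : Stab M) (h : RegAll M) :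
    ∃ m₀ : ℤ, ∀ m, m₀ ≤ m → Fr R.b' m ≤ R.Im m := by
  classical
  let J : Ideal T :=
    { carrier := {f | ∀ w : R.κ → T, ∃ u, lc R.col u = f • w}
      zero_mem' := fun w => ⟨0, by simp⟩
      add_mem' := fun {f g} hf hg w => by
        obtain ⟨u, hu⟩ := hf w
        obtain ⟨u', hu'⟩ := hg w
        exact ⟨u + u', by rw [map_add, hu, hu', add_smul]⟩
      smul_mem' := fun c f hf w => by
        obtain ⟨u, hu⟩ := hf w
        exact ⟨c • u, by rw [map_smul, hu, smul_eq_mul, mul_smul]⟩ }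
  have hJ : ∀ p : Fin 3 → ℂ, p ≠ 0 → ∃ f ∈ J, eval p f ≠ 0 := by
    intro p hp
    let N : Matrix R.κ R.ι T := Matrix.of R.n
    let Np : Matrix R.κ R.ι ℂ := N.map (eval p)
    have hinj : LinearMap.ker Np.vecMulLinear = ⊥ := by
      rw [LinearMap.ker_eq_bot']
      intro c hc
      exact R.fibre_inj hM h hp c fun i => congrFun hc i
    obtain ⟨ψ, hψ⟩ := Np.vecMulLinear.exists_leftInverse_of_injective hinj
    let L : Matrix R.ι R.κ ℂ := LinearMap.toMatrixRight' ψ
    have hL : Np * L = 1 := by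
      ext j j'
      have h1 := congrFun (LinearMap.congr_fun hψ (Pi.single j 1)) j'
      have h2 : ψ = L.vecMulLinear := (LinearMap.toMatrixRight'.symm_apply_apply ψ).symm
      rw [h2] at h1
      simp only [LinearMap.comp_apply, Matrix.vecMulLinear_apply,
        LinearMap.id_apply, Matrix.single_one_vecMul] at h1
      rw [Matrix.one_apply]
      rw [Pi.single_apply] at h1
      simp only [eq_comm (a := j)]
      exact h1
    let L' : Matrix R.ι R.κ T := L.map C
    let G : Matrix R.κ R.κ T := N * L'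
    refine ⟨G.det, fun w => ⟨L'.mulVec (G.adjugate.mulVec w), ?_⟩, ?_⟩
    · have h1 : ∀ u, lc R.col u = N.mulVec u := by
        intro u
        funext j
        rw [R.tr_apply, lc_apply]
        rfl
      rw [h1, Matrix.mulVec_mulVec, Matrix.mulVec_mulVec]
      change (G * G.adjugate).mulVec w = _
      rw [Matrix.mul_adjugate, Matrix.smul_mulVec, Matrix.one_mulVec]
    · have h1 : (eval p).mapMatrix G = 1 := by
        rw [← hL]
        change (N * L').map (eval p) = _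
        rw [Matrix.map_mul]
        congr 1
        ext i j
        simp [L']
      rw [RingHom.map_det, h1, Matrix.det_one]
      exact one_ne_zero
  have hX : ∀ i : Fin 3, ∃ e : ℕ, (X i ^ e : T) ∈ J := by
    intro i
    have h1 : (X i : T) ∈ J.radical := by
      rw [← vanishingIdeal_zeroLocus_eq_radical (K := ℂ), mem_vanishingIdeal_iff]
      intro p hp
      by_cases h0 : p = 0
      · simp [h0]
      · obtain ⟨f, hf, hf0⟩ := hJ p h0
        exact absurd (mem_zeroLocus_iff.1 hp f hf) hf0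
    exact h1
  refine (fg_Fr R.b').nil R.stab_Im fun m w hw i => ?_
  obtain ⟨e, he⟩ := hX i
  obtain ⟨u, hu⟩ := he w
  refine ⟨e, cmpF R.a' (m + e) u, cmpF_mem _ _ _, ?_⟩
  change lc R.col _ = _
  rw [← cmpF_lc R.col_mem, hu]
  exact cmpF_of_mem ((stab_Fr _).smul (X_pow_mem i e) hw rfl)

end Res

end Vale.Agent.P297Z.Gr
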