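import Vale.Agent.P297Z.Gr.Poly

/-!
# Graded modules over `T`, as families of subspaces of a `T`-module
-/

set_option linter.unusedSectionVars false

namespace Vale.Agent.P297Z.Gr

open MvPolynomial

variable {V : Type} [AddCommGroup V] [Module ℂ V] [Module T V] [IsScalarTower ℂ T V]

/-- The family is stable under the multiplication by the variables. -/
def Stab (M : ℤ → Submodule ℂ V) : Prop := ∀ (i : Fin 3) m, ∀ x ∈ M m, (X i : T) • x ∈ M (m + 1)

theorem C_smul (c : ℂ) (x : V) : (C c : T) • x = c • x := by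
  rw [← algebraMap_smul T c x]
  rfl

theorem Stab.smul_nat {M : ℤ → Submodule ℂ V} (h : Stab M) (n : ℕ) :
    ∀ {t : T}, t ∈ Tz n → ∀ {m : ℤ} {x : V}, x ∈ M m → t • x ∈ M (m + n) := by
  induction n with
  | zero =>
    intro t ht m x hx
    rw [eq_C ht, C_smul]
    simpa using Submodule.smul_mem _ _ hx
  | succ n ih =>
    intro t ht m x hx
    obtain ⟨g, h1, rfl⟩ := exists_X_sum (by omega) ht
    rw [Finset.sum_smul]
    refine sum_mem fun i _ => ?_
    rw [mul_smul]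
    have h2 := h i _ _ (ih (by simpa using h1 i) hx)
    rwa [add_assoc, ← Nat.cast_succ] at h2

theorem Stab.smul {M : ℤ → Submodule ℂ V} (h : Stab M) {d : ℤ} {t : T} (ht : t ∈ Tz d) {m : ℤ}
    {x : V} (hx : x ∈ M m) {k : ℤ} (hk : m + d = k) : t • x ∈ M k := by
  subst hk
  rcases lt_or_ge d 0 with h1 | h1
  · rw [eq_zero_of_neg h1 ht, zero_smul]
    exact zero_mem _
  · obtain ⟨n, rfl⟩ := Int.eq_ofNat_of_zero_le h1
    exact h.smul_nat n ht hx

/-- The graded free module with generators of degrees `a i`. -/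
noncomputable def Fr {ι : Type} (a : ι → ℤ) (m : ℤ) : Submodule ℂ (ι → T) :=
  Submodule.pi Set.univ fun i => Tz (m - a i)

theorem mem_Fr {ι : Type} {a : ι → ℤ} {m : ℤ} {v : ι → T} :
    v ∈ Fr a m ↔ ∀ i, v i ∈ Tz (m - a i) := by
  simp [Fr, Submodule.mem_pi]

theorem stab_Fr {ι : Type} (a : ι → ℤ) : Stab (Fr a) := by
  intro i m v hv
  rw [mem_Fr] at hv ⊢
  intro j
  exact Tz_mul' (X_mem i) (hv j) (by ring)

theorem stab_Tz : Stab Tz := fun i _ _ hx => Tz_mul' (X_mem i) hx (by ring)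

/-- The free module as a product. -/
noncomputable def frEquiv {ι : Type} (a : ι → ℤ) (m : ℤ) :
    Fr a m ≃ₗ[ℂ] ∀ i, Tz (m - a i) where
  toFun v i := ⟨v.1 i, mem_Fr.1 v.2 i⟩
  invFun w := ⟨fun i => w i, mem_Fr.2 fun i => (w i).2⟩
  map_add' _ _ := rfl
  map_smul' _ _ := rfl
  left_inv _ := rfl
  right_inv _ := rfl

instance finite_Fr {ι : Type} [Finite ι] (a : ι → ℤ) (m : ℤ) : Module.Finite ℂ (Fr a m) :=
  Module.Finite.equiv (frEquiv a m).symm

theorem finrank_Fr {ι : Type} [Fintype ι] (a : ι → ℤ) (m : ℤ) :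
    (Module.finrank ℂ (Fr a m) : ℤ) = ∑ i, tt (m - a i) := by
  rw [(frEquiv a m).finrank_eq, Module.finrank_pi_fintype]
  push_cast
  rfl

theorem single_mem_Fr {ι : Type} [DecidableEq ι] (a : ι → ℤ) (i : ι) :
    (Pi.single i 1 : ι → T) ∈ Fr a (a i) := by
  rw [mem_Fr]
  intro j
  by_cases h : j = i
  · subst h
    rw [Pi.single_eq_same, sub_self]
    exact one_mem'
  · rw [Pi.single_eq_of_ne h]
    exact zero_mem _

/-- The component of degree `m` in a free module. -/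
noncomputable def cmpF {ι : Type} (a : ι → ℤ) (m : ℤ) : (ι → T) →ₗ[ℂ] (ι → T) :=
  LinearMap.pi fun i => cmp (m - a i) ∘ₗ LinearMap.proj i

theorem cmpF_apply {ι : Type} (a : ι → ℤ) (m : ℤ) (v : ι → T) (i : ι) :
    cmpF a m v i = cmp (m - a i) (v i) := rfl

theorem cmpF_mem {ι : Type} (a : ι → ℤ) (m : ℤ) (v : ι → T) : cmpF a m v ∈ Fr a m :=
  mem_Fr.2 fun _ => cmp_mem _ _

theorem cmpF_of_mem {ι : Type} {a : ι → ℤ} {m : ℤ} {v : ι → T} (hv : v ∈ Fr a m) :
    cmpF a m v = v := funext fun i => cmp_of_mem (mem_Fr.1 hv i)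

theorem cmpF_smul {ι : Type} {a : ι → ℤ} {b : ℤ} {u : ι → T} (hu : u ∈ Fr a b) (m : ℤ) (t : T) :
    cmpF a m (t • u) = cmp (m - b) t • u := by
  funext i
  rw [cmpF_apply, Pi.smul_apply, Pi.smul_apply, smul_eq_mul, smul_eq_mul,
    cmp_mul (mem_Fr.1 hu i)]
  congr 3
  ring

/-- The map from the free module given by a family of elements. -/
noncomputable def lc {ι : Type} [Fintype ι] (g : ι → V) : (ι → T) →ₗ[T] V :=
  Fintype.linearCombination T g

theorem lc_apply {ι : Type} [Fintype ι] (g : ι → V) (v : ι → T) : lc g v = ∑ i, v i • g i := rfl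

theorem lc_single {ι : Type} [Fintype ι] [DecidableEq ι] (g : ι → V) (i : ι) :
    lc g (Pi.single i 1) = g i := by
  simp [lc]

theorem lc_csmul {ι : Type} [Fintype ι] (g : ι → V) (c : ℂ) (v : ι → T) :
    lc g (c • v) = c • lc g v := by
  rw [← C_smul, map_smul, C_smul]

theorem lc_mem {M : ℤ → Submodule ℂ V} (h : Stab M) {ι : Type} [Fintype ι] {a : ι → ℤ}
    {g : ι → V} (hg : ∀ i, g i ∈ M (a i)) {m : ℤ} {v : ι → T} (hv : v ∈ Fr a m) :
    lc g v ∈ M m := by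
  rw [lc_apply]
  exact sum_mem fun i _ => h.smul (mem_Fr.1 hv i) (hg i) (by ring)

theorem cmpF_lc {ι κ : Type} [Fintype κ] {a : ι → ℤ} {b : κ → ℤ} {n : κ → ι → T}
    (hn : ∀ j, n j ∈ Fr a (b j)) (m : ℤ) (w : κ → T) :
    cmpF a m (lc n w) = lc n (cmpF b m w) := by
  rw [lc_apply, lc_apply, map_sum]
  exact Finset.sum_congr rfl fun j _ => cmpF_smul (hn j) m _

/-- The elements `g i`, of degrees `a i`, generate the graded module. -/
structure Gen (M : ℤ → Submodule ℂ V) {ι : Type} [Fintype ι] (a : ι → ℤ) (g : ι → V) : Prop where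
  mem : ∀ i, g i ∈ M (a i)
  surj : ∀ m, ∀ x ∈ M m, ∃ v ∈ Fr a m, lc g v = x

/-- The graded module is finitely generated. -/
def FG (M : ℤ → Submodule ℂ V) : Prop :=
  ∃ (ι : Type) (_ : Fintype ι) (a : ι → ℤ) (g : ι → V), Gen M a g

theorem gen_Fr {ι : Type} [Fintype ι] [DecidableEq ι] (a : ι → ℤ) :
    Gen (Fr a) a fun i => Pi.single i 1 := by
  refine ⟨single_mem_Fr a, fun m x hx => ⟨x, hx, ?_⟩⟩
  rw [lc_apply]
  funext j
  simp [Finset.sum_apply, Pi.single_apply]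

theorem fg_Fr {ι : Type} [Finite ι] (a : ι → ℤ) : FG (Fr a) := by
  classical
  have := Fintype.ofFinite ι
  exact ⟨ι, this, a, _, gen_Fr a⟩

theorem FG.finite {M : ℤ → Submodule ℂ V} (h : FG M) (m : ℤ) : Module.Finite ℂ (M m) := by
  obtain ⟨ι, _, a, g, hg⟩ := h
  have h1 : M m ≤ (Fr a m).map ((lc g).restrictScalars ℂ) := by
    intro x hx
    obtain ⟨v, hv, rfl⟩ := hg.surj m x hx
    exact ⟨v, hv, rfl⟩
  exact Submodule.finiteDimensional_of_le h1

theorem FG.exists_bot {M : ℤ → Submodule ℂ V} (h : FG M) : ∃ lo : ℤ, ∀ m < lo, M m = ⊥ := by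
  obtain ⟨ι, _, a, g, hg⟩ := h
  obtain ⟨lo, hlo⟩ := (Set.finite_range a).bddBelow
  refine ⟨lo, fun m hm => ?_⟩
  rw [eq_bot_iff]
  intro x hx
  obtain ⟨v, hv, rfl⟩ := hg.surj m x hx
  have h1 : v = 0 := funext fun i =>
    eq_zero_of_neg (by have := hlo ⟨i, rfl⟩; omega) (mem_Fr.1 hv i)
  rw [h1, map_zero]
  exact zero_mem _

/-- A graded submodule of a finitely generated graded module is finitely generated. -/
theorem FG.sub {M Z : ℤ → Submodule ℂ V} (h : FG M) (hZ : ∀ m, Z m ≤ M m) : FG Z := by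
  classical
  obtain ⟨ι, _, a, g, hg⟩ := h
  let S : Set (ι → T) := {v | ∃ m, v ∈ Fr a m ∧ lc g v ∈ Z m}
  obtain ⟨s, hs, hs'⟩ := (Submodule.fg_span_iff_fg_span_finset_subset (R := T) S).1
    (IsNoetherian.noetherian _)
  choose b hb hb' using fun u : s => hs u.2
  refine ⟨s, inferInstance, b, fun u => lc g u.1, hb', fun m z hz => ?_⟩
  obtain ⟨v, hv, rfl⟩ := hg.surj m z (hZ m hz)
  have h1 : v ∈ Submodule.span T (s : Set (ι → T)) := by
    rw [← hs']
    exact Submodule.subset_span ⟨m, hv, hz⟩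
  have h2 : v ∈ Submodule.span T (Set.range fun u : s => u.1) := by
    rwa [Subtype.range_coe_subtype]
  obtain ⟨t, ht⟩ := (Submodule.mem_span_range_iff_exists_fun T).1 h2
  have h3 : lc (fun u : s => u.1) t = v := ht
  refine ⟨cmpF b m t, cmpF_mem _ _ _, ?_⟩
  rw [← cmpF_of_mem hv, ← h3, cmpF_lc hb, lc_apply, lc_apply (fun u : s => u.1), map_sum]
  simp only [map_smul]

/-- A finitely generated graded module which is killed by powers of the variables vanishes in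
large degrees. -/
theorem FG.nil {Z B : ℤ → Submodule ℂ V} (h : FG Z) (hB : Stab B)
    (hn : ∀ m, ∀ z ∈ Z m, ∀ i : Fin 3, ∃ e : ℕ, (X i ^ e : T) • z ∈ B (m + e)) :
    ∃ m₀ : ℤ, ∀ m, m₀ ≤ m → Z m ≤ B m := by
  obtain ⟨ι, _, a, g, hg⟩ := h
  choose e he using fun p : ι × Fin 3 => hn _ _ (hg.mem p.1) p.2
  obtain ⟨E, hE⟩ := (Set.finite_range e).bddAbove
  obtain ⟨hi, hhi⟩ := (Set.finite_range a).bddAbove
  have h1 : ∀ j i, (X i ^ E : T) • g j ∈ B (a j + E) := by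
    intro j i
    have h2 : e (j, i) ≤ E := hE ⟨_, rfl⟩
    obtain ⟨k, hk⟩ := Nat.exists_eq_add_of_le h2
    rw [hk, add_comm (e (j, i)) k, pow_add, mul_smul]
    exact hB.smul (X_pow_mem i k) (he (j, i)) (by push_cast; ring)
  refine ⟨hi + 3 * E, fun m hm z hz => ?_⟩
  obtain ⟨v, hv, rfl⟩ := hg.surj m z hz
  rw [lc_apply]
  refine sum_mem fun j _ => ?_
  have h2 : a j ≤ hi := hhi ⟨j, rfl⟩
  obtain ⟨t, ht, h3⟩ := exists_big_sum E (by omega) (mem_Fr.1 hv j)
  rw [h3, Finset.sum_smul]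
  refine sum_mem fun i _ => ?_
  rw [mul_comm, mul_smul]
  exact hB.smul (ht i) (h1 j i) (by ring)

section Maps

variable {W : Type} [AddCommGroup W] [Module ℂ W] [Module T W] [IsScalarTower ℂ T W]

/-- A family of maps which commute with the variables. -/
def Compat {M : ℤ → Submodule ℂ V} (hM : Stab M) (f : ∀ m, M m →ₗ[ℂ] W) : Prop :=
  ∀ (i : Fin 3) m (x : M m), f (m + 1) ⟨(X i : T) • x.1, hM i m x.1 x.2⟩ = (X i : T) • f m x

theorem Compat.cast {M : ℤ → Submodule ℂ V} (f : ∀ m, M m →ₗ[ℂ] W) {m k : ℤ} (h : m = k) {x : V}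
    (hx : x ∈ M m) (hx' : x ∈ M k) : f m ⟨x, hx⟩ = f k ⟨x, hx'⟩ := by
  subst h
  rfl

theorem Compat.smul_nat {M : ℤ → Submodule ℂ V} {hM : Stab M} {f : ∀ m, M m →ₗ[ℂ] W}
    (hf : Compat hM f) (n : ℕ) : ∀ {t : T} (ht : t ∈ Tz n) {m : ℤ} {x : V} (hx : x ∈ M m),
      f (m + n) ⟨t • x, hM.smul ht hx rfl⟩ = t • f m ⟨x, hx⟩ := by
  induction n with
  | zero =>
    intro t ht m x hx
    have h1 : t • x = coeff 0 t • x := by rw [← C_smul, ← eq_C ht]
    have h2 : t • f m ⟨x, hx⟩ = coeff 0 t • f m ⟨x, hx⟩ := by rw [← C_smul, ← eq_C ht]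
    rw [h2, ← map_smul, Compat.cast f (show m + (0 : ℕ) = m by simp) _
      (hM.smul ht hx (by simp))]
    congr 1
    exact Subtype.ext h1
  | succ n ih =>
    intro t ht m x hx
    obtain ⟨g, h1, h2⟩ := exists_X_sum (by omega) ht
    have h3 : ∀ i, g i ∈ Tz n := fun i => by simpa using h1 i
    have h4 : (⟨t • x, hM.smul ht hx (by push_cast; ring)⟩ : M (m + n + 1)) =
        ∑ i, ⟨(X i : T) • (g i • x), hM i _ _ (hM.smul (h3 i) hx rfl)⟩ := by
      apply Subtype.ext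
      rw [AddSubmonoidClass.coe_finsetSum]
      change t • x = ∑ i, (X i : T) • (g i • x)
      rw [h2, Finset.sum_smul]
      simp only [mul_smul]
    rw [Compat.cast f (show m + (n + 1 : ℕ) = m + n + 1 by push_cast; ring) _
      (hM.smul ht hx (by push_cast; ring)), h4, map_sum]
    conv_rhs => rw [h2, Finset.sum_smul]
    refine Finset.sum_congr rfl fun i _ => ?_
    rw [mul_smul, ← ih (h3 i) hx]
    exact hf i (m + n) ⟨g i • x, hM.smul (h3 i) hx rfl⟩

theorem Compat.smul {M : ℤ → Submodule ℂ V} {hM : Stab M} {f : ∀ m, M m →ₗ[ℂ] W}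
    (hf : Compat hM f) {d : ℤ} {t : T} (ht : t ∈ Tz d) {m : ℤ} {x : V} (hx : x ∈ M m) {k : ℤ}
    (hk : m + d = k) : f k ⟨t • x, hM.smul ht hx hk⟩ = t • f m ⟨x, hx⟩ := by
  subst hk
  rcases lt_or_ge d 0 with h1 | h1
  · have h2 := eq_zero_of_neg h1 ht
    subst h2
    have h3 : (⟨(0 : T) • x, hM.smul ht hx rfl⟩ : M (m + d)) = 0 := Subtype.ext (zero_smul _ _)
    rw [h3, map_zero, zero_smul]
  · obtain ⟨n, rfl⟩ := Int.eq_ofNat_of_zero_le h1
    exact hf.smul_nat n ht hx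

theorem Compat.lc {M : ℤ → Submodule ℂ V} {hM : Stab M} {f : ∀ m, M m →ₗ[ℂ] W}
    (hf : Compat hM f) {ι : Type} [Fintype ι] {a : ι → ℤ} {g : ι → V} (hg : ∀ i, g i ∈ M (a i))
    {m : ℤ} {v : ι → T} (hv : v ∈ Fr a m) :
    f m ⟨lc g v, lc_mem hM hg hv⟩ = Gr.lc (fun i => f (a i) ⟨g i, hg i⟩) v := by
  have h1 : (⟨Gr.lc g v, lc_mem hM hg hv⟩ : M m) =
      ∑ i, ⟨v i • g i, hM.smul (mem_Fr.1 hv i) (hg i) (by ring)⟩ := by
    apply Subtype.ext
    rw [AddSubmonoidClass.coe_finsetSum]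
    rfl
  rw [h1, map_sum, lc_apply]
  exact Finset.sum_congr rfl fun i _ => hf.smul (mem_Fr.1 hv i) (hg i) (by ring)

/-- A graded module which embeds in a finitely generated one is finitely generated. -/
theorem FG.of_injective {M : ℤ → Submodule ℂ V} (hM : Stab M) {N : ℤ → Submodule ℂ W} (hN : FG N)
    (f : ∀ m, M m →ₗ[ℂ] W) (hf : Compat hM f) (hfN : ∀ m x, f m x ∈ N m)
    (hinj : ∀ m, Function.Injective (f m)) : FG M := by
  obtain ⟨ι, _, a, g, hg⟩ := hN.sub (Z := fun m => LinearMap.range (f m))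
    (fun m => by rintro _ ⟨x, rfl⟩; exact hfN m x)
  choose g' hg' using hg.mem
  refine ⟨ι, inferInstance, a, fun i => (g' i).1, fun i => (g' i).2, fun m x hx => ?_⟩
  obtain ⟨v, hv, h1⟩ := hg.surj m (f m ⟨x, hx⟩) ⟨_, rfl⟩
  refine ⟨v, hv, ?_⟩
  have h2 := hf.lc (fun i => (g' i).2) hv
  simp only [Subtype.coe_eta, hg'] at h2
  exact congrArg Subtype.val (hinj m (h2.trans h1))

end Maps

end Vale.Agent.P297Z.Gr
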