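import Mathlib

/-!
# The graded ring `T = ℂ[y₀, y₁, y₂]`, graded by the integers
-/

namespace Vale.Agent.P297Z.Gr

open MvPolynomial

/-- The polynomial ring in three variables. -/
abbrev T : Type := MvPolynomial (Fin 3) ℂ

/-- All the variables have weight one. -/
def wt : Fin 3 → ℤ := fun _ => 1

/-- The forms of degree `d`. -/
noncomputable def Tz (d : ℤ) : Submodule ℂ T := weightedHomogeneousSubmodule ℂ wt d

/-- The component of degree `d`. -/
noncomputable def cmp (d : ℤ) : T →ₗ[ℂ] T := weightedHomogeneousComponent wt d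

/-- The degree of a monomial. -/
def dg (s : Fin 3 →₀ ℕ) : ℤ := (s 0 : ℤ) + s 1 + s 2

theorem weight_wt (s : Fin 3 →₀ ℕ) : Finsupp.weight wt s = dg s := by
  rw [Finsupp.weight_apply, Finsupp.sum_fintype _ _ (by simp)]
  simp [wt, dg, Fin.sum_univ_three]

theorem dg_add (s t : Fin 3 →₀ ℕ) : dg (s + t) = dg s + dg t := by
  simp only [dg, Finsupp.add_apply]
  push_cast
  ring

theorem dg_single (i : Fin 3) (e : ℕ) : dg (Finsupp.single i e) = e := by
  fin_cases i <;> simp [dg]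

theorem dg_nonneg (s : Fin 3 →₀ ℕ) : 0 ≤ dg s := by
  unfold dg
  positivity

theorem mem_Tz {d : ℤ} {f : T} : f ∈ Tz d ↔ ∀ s, coeff s f ≠ 0 → dg s = d := by
  unfold Tz
  rw [mem_weightedHomogeneousSubmodule]
  constructor
  · intro h s hs
    rw [← weight_wt]
    exact h hs
  · intro h s hs
    rw [weight_wt]
    exact h s hs

theorem Tz_iff {n : ℕ} {f : T} : f ∈ Tz n ↔ f.IsHomogeneous n := by
  rw [mem_Tz]
  have h1 : ∀ s : Fin 3 →₀ ℕ, Finsupp.weight (1 : Fin 3 → ℕ) s = s 0 + s 1 + s 2 := by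
    intro s
    rw [Finsupp.weight_apply, Finsupp.sum_fintype _ _ (by simp)]
    simp [Fin.sum_univ_three]
  constructor
  · intro h s hs
    have h2 := h s hs
    rw [h1]
    unfold dg at h2
    omega
  · intro h s hs
    have h2 := h hs
    rw [h1] at h2
    unfold dg
    omega

theorem Tz_mul {a b : ℤ} {f g : T} (hf : f ∈ Tz a) (hg : g ∈ Tz b) : f * g ∈ Tz (a + b) :=
  IsWeightedHomogeneous.mul hf hg

theorem Tz_mul' {a b c : ℤ} {f g : T} (hf : f ∈ Tz a) (hg : g ∈ Tz b) (h : a + b = c) :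
    f * g ∈ Tz c := h ▸ Tz_mul hf hg

theorem monomial_mem {d : ℤ} {s : Fin 3 →₀ ℕ} (c : ℂ) (h : dg s = d) : monomial s c ∈ Tz d :=
  isWeightedHomogeneous_monomial wt s c ((weight_wt s).trans h)

theorem X_mem (i : Fin 3) : (X i : T) ∈ Tz 1 := isWeightedHomogeneous_X ℂ wt i

theorem C_mem (c : ℂ) : (C c : T) ∈ Tz 0 := isWeightedHomogeneous_C wt c

theorem one_mem' : (1 : T) ∈ Tz 0 := isWeightedHomogeneous_one ℂ wt

theorem pow_mem' {a : ℤ} {f : T} (hf : f ∈ Tz a) (n : ℕ) : f ^ n ∈ Tz (n * a) := by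
  induction n with
  | zero => simpa using one_mem'
  | succ n ih =>
    rw [pow_succ]
    exact Tz_mul' ih hf (by push_cast; ring)

theorem X_pow_mem (i : Fin 3) (e : ℕ) : (X i ^ e : T) ∈ Tz e := by
  simpa using pow_mem' (X_mem i) e

theorem eq_zero_of_neg {d : ℤ} (hd : d < 0) {f : T} (hf : f ∈ Tz d) : f = 0 := by
  ext s
  by_contra h
  have h1 := mem_Tz.1 hf s h
  have h2 := dg_nonneg s
  omega

theorem eq_C {f : T} (hf : f ∈ Tz 0) : f = C (coeff 0 f) := by
  ext s
  rw [coeff_C]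
  split_ifs with h
  · rw [h]
  · by_contra h1
    have h2 := mem_Tz.1 hf s h1
    apply h
    ext i
    unfold dg at h2
    fin_cases i <;> simp <;> omega

theorem coeff_cmp (d : ℤ) (f : T) (s : Fin 3 →₀ ℕ) :
    coeff s (cmp d f) = if dg s = d then coeff s f else 0 := by
  unfold cmp
  rw [coeff_weightedHomogeneousComponent, weight_wt]

theorem cmp_mem (d : ℤ) (f : T) : cmp d f ∈ Tz d := weightedHomogeneousComponent_mem wt f d

theorem cmp_of_mem {d : ℤ} {f : T} (hf : f ∈ Tz d) : cmp d f = f := by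
  ext s
  rw [coeff_cmp]
  split_ifs with h
  · rfl
  · by_contra h1
    exact h (mem_Tz.1 hf s (Ne.symm h1))

theorem cmp_mul {a : ℤ} {t : T} (ht : t ∈ Tz a) (d : ℤ) (f : T) :
    cmp d (f * t) = cmp (d - a) f * t := by
  ext s
  rw [coeff_cmp, coeff_mul, coeff_mul]
  split_ifs with h
  · refine Finset.sum_congr rfl fun x hx => ?_
    rw [coeff_cmp]
    split_ifs with h1
    · rfl
    · by_cases h2 : coeff x.2 t = 0
      · rw [h2, mul_zero, mul_zero]
      · exfalso
        have h3 := mem_Tz.1 ht _ h2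
        have h4 := dg_add x.1 x.2
        rw [Finset.HasAntidiagonal.mem_antidiagonal.1 hx] at h4
        omega
  · symm
    refine Finset.sum_eq_zero fun x hx => ?_
    rw [coeff_cmp]
    split_ifs with h1
    · by_cases h2 : coeff x.2 t = 0
      · rw [h2, mul_zero]
      · exfalso
        have h3 := mem_Tz.1 ht _ h2
        have h4 := dg_add x.1 x.2
        rw [Finset.HasAntidiagonal.mem_antidiagonal.1 hx] at h4
        omega
    · rw [zero_mul]

/-- Division by powers of the variables. -/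
theorem exists_pow_sum (I : Set (Fin 3)) (e : ℕ) {d : ℤ} {f : T} (hf : f ∈ Tz d)
    (h : ∀ s, coeff s f ≠ 0 → ∃ i ∈ I, e ≤ s i) :
    ∃ g : Fin 3 → T, (∀ i, g i ∈ Tz (d - e)) ∧ (∀ i, i ∉ I → g i = 0) ∧
      f = ∑ i, X i ^ e * g i := by
  classical
  let Q : AddSubmonoid T :=
    { carrier := {f | ∃ g : Fin 3 → T, (∀ i, g i ∈ Tz (d - e)) ∧ (∀ i, i ∉ I → g i = 0) ∧
        f = ∑ i, X i ^ e * g i}
      zero_mem' := ⟨0, fun _ => zero_mem _, fun _ _ => rfl, by simp⟩
      add_mem' := by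
        rintro _ _ ⟨g, h1, h2, rfl⟩ ⟨g', h1', h2', rfl⟩
        refine ⟨g + g', fun i => add_mem (h1 i) (h1' i), fun i hi => ?_, ?_⟩
        · rw [Pi.add_apply, h2 i hi, h2' i hi, add_zero]
        · simp only [Pi.add_apply, mul_add, Finset.sum_add_distrib] }
  change f ∈ Q
  rw [f.as_sum]
  refine sum_mem fun s hs => ?_
  have hs' : coeff s f ≠ 0 := mem_support_iff.1 hs
  obtain ⟨i, hi, hie⟩ := h s hs'
  have h1 : Finsupp.single i e + (s - Finsupp.single i e) = s :=
    add_tsub_cancel_of_le (Finsupp.single_le_iff.2 hie)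
  refine ⟨Pi.single i (monomial (s - Finsupp.single i e) (coeff s f)), fun j => ?_,
    fun j hj => ?_, ?_⟩
  · by_cases hj : j = i
    · subst hj
      rw [Pi.single_eq_same]
      refine monomial_mem _ ?_
      have h2 := dg_add (Finsupp.single j e) (s - Finsupp.single j e)
      rw [h1, dg_single, mem_Tz.1 hf s hs'] at h2
      omega
    · rw [Pi.single_eq_of_ne hj]
      exact zero_mem _
  · exact Pi.single_eq_of_ne (fun h : j = i => hj (h ▸ hi)) _
  · rw [Finset.sum_eq_single i]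
    · rw [Pi.single_eq_same, X_pow_eq_monomial, monomial_mul, one_mul, h1]
    · intro j _ hj
      rw [Pi.single_eq_of_ne hj, mul_zero]
    · intro h
      exact absurd (Finset.mem_univ i) h

theorem exists_X_sum {d : ℤ} (hd : d ≠ 0) {f : T} (hf : f ∈ Tz d) :
    ∃ g : Fin 3 → T, (∀ i, g i ∈ Tz (d - 1)) ∧ f = ∑ i, X i * g i := by
  obtain ⟨g, h1, -, h2⟩ := exists_pow_sum Set.univ 1 hf (fun s hs => by
    have h1 := mem_Tz.1 hf s hs
    unfold dg at h1
    by_contra hcon
    push Not at hcon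
    have h2 := hcon 0 trivial
    have h3 := hcon 1 trivial
    have h4 := hcon 2 trivial
    omega)
  exact ⟨g, by simpa using h1, by simpa using h2⟩

theorem exists_big_sum (e : ℕ) {d : ℤ} (hd : 3 * (e : ℤ) ≤ d) {f : T} (hf : f ∈ Tz d) :
    ∃ g : Fin 3 → T, (∀ i, g i ∈ Tz (d - e)) ∧ f = ∑ i, X i ^ e * g i := by
  obtain ⟨g, h1, -, h2⟩ := exists_pow_sum Set.univ e hf (fun s hs => by
    have h1 := mem_Tz.1 hf s hs
    unfold dg at h1
    by_contra hcon
    push Not at hcon
    have h2 := hcon 0 trivial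
    have h3 := hcon 1 trivial
    have h4 := hcon 2 trivial
    omega)
  exact ⟨g, h1, h2⟩

theorem coeff_X_mul_zero {i : Fin 3} {s : Fin 3 →₀ ℕ} (h : s i = 0) (f : T) :
    coeff s (X i * f) = 0 := by
  rw [coeff_X_mul', if_neg (by simpa using h)]

/-- `y₀, y₁` is a regular sequence. -/
theorem reg_one {d : ℤ} {x x' : T} (hx : x ∈ Tz d) (h : X 1 * x = X 0 * x') :
    ∃ w ∈ Tz (d - 1), x = X 0 * w := by
  obtain ⟨g, h1, h2, h3⟩ := exists_pow_sum {0} 1 hx (fun s hs => by
    refine ⟨0, rfl, ?_⟩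
    by_contra hcon
    apply hs
    rw [← coeff_X_mul s 1 x, h]
    refine coeff_X_mul_zero ?_ _
    simp only [Finsupp.add_apply]
    rw [Finsupp.single_eq_of_ne (by decide)]
    omega)
  refine ⟨g 0, by simpa using h1 0, ?_⟩
  rw [h3, Fin.sum_univ_three, h2 1 (by simp), h2 2 (by simp)]
  simp

/-- `y₀, y₁, y₂` is a regular sequence. -/
theorem reg_two {d : ℤ} {x a b : T} (hx : x ∈ Tz d) (h : X 2 * x = X 0 * a + X 1 * b) :
    ∃ p ∈ Tz (d - 1), ∃ q ∈ Tz (d - 1), x = X 0 * p + X 1 * q := by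
  obtain ⟨g, h1, h2, h3⟩ := exists_pow_sum {0, 1} 1 hx (fun s hs => by
    by_contra hcon
    push Not at hcon
    have h0 := hcon 0 (by simp)
    have h1 := hcon 1 (by simp)
    apply hs
    rw [← coeff_X_mul s 2 x, h, coeff_add, coeff_X_mul_zero, coeff_X_mul_zero, add_zero]
    · simp only [Finsupp.add_apply]
      rw [Finsupp.single_eq_of_ne (by decide)]
      omega
    · simp only [Finsupp.add_apply]
      rw [Finsupp.single_eq_of_ne (by decide)]
      omega)
  refine ⟨g 0, by simpa using h1 0, g 1, by simpa using h1 1, ?_⟩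
  rw [h3, Fin.sum_univ_three, h2 2 (by simp)]
  simp

/-- The monomials of degree `d`. -/
theorem Tz_eq (d : ℤ) : Tz d = restrictSupport ℂ {s : Fin 3 →₀ ℕ | dg s = d} := by
  ext f
  rw [mem_Tz, mem_restrictSupport_iff]
  constructor
  · intro h s hs
    exact h s (mem_support_iff.1 hs)
  · intro h s hs
    exact h (mem_support_iff.2 hs)

theorem dg_set_eq (n : ℕ) : {s : Fin 3 →₀ ℕ | dg s = n} =
    ↑((Finset.univ : Finset (Fin 3)).finsuppAntidiag n) := by
  ext s
  simp only [Set.mem_ofPred_eq, Finset.mem_coe, Finset.mem_finsuppAntidiag, Fin.sum_univ_three,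
    Finset.subset_univ, and_true, dg]
  omega

theorem dg_finite (d : ℤ) : {s : Fin 3 →₀ ℕ | dg s = d}.Finite := by
  rcases lt_or_ge d 0 with h | h
  · convert Set.finite_empty
    ext s
    have := dg_nonneg s
    simp only [Set.mem_ofPred_eq, Set.mem_empty_iff_false, iff_false]
    omega
  · obtain ⟨n, rfl⟩ := Int.eq_ofNat_of_zero_le h
    rw [dg_set_eq]
    exact Finset.finite_toSet _

instance finite_Tz (d : ℤ) : Module.Finite ℂ (Tz d) := by
  rw [Tz_eq]
  have := (dg_finite d).to_subtype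
  exact Module.Finite.of_basis (basisRestrictSupport ℂ _)

/-- The dimension of the space of the forms of degree `d`. -/
noncomputable def tt (d : ℤ) : ℤ := Module.finrank ℂ (Tz d)

theorem tt_neg {d : ℤ} (hd : d < 0) : tt d = 0 := by
  have h : Tz d = ⊥ := by
    rw [eq_bot_iff]
    intro f hf
    exact eq_zero_of_neg hd hf
  rw [tt, h, finrank_bot]
  rfl

theorem tt_nat (n : ℕ) : 2 * tt n = (n + 1) * (n + 2) := by
  have h1 : Module.finrank ℂ (Tz n) = (n + 2).choose 2 := by
    rw [Tz_eq, dg_set_eq, Module.finrank_eq_nat_card_basis (basisRestrictSupport ℂ _)]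
    rw [Nat.card_coe_set_eq, Set.ncard_coe_finset, Finset.card_finsuppAntidiag_nat_eq_choose]
    simp only [Finset.card_univ, Fintype.card_fin]
    rw [show 3 + n - 1 = n + 2 by omega, Nat.choose_symm_add]
  rw [tt, h1]
  have h2 := Nat.choose_two_right (n + 2)
  have h3 : 2 ∣ (n + 2) * (n + 2 - 1) := (Nat.even_mul_pred_self _).two_dvd
  have h4 : 2 * (n + 2).choose 2 = (n + 2) * (n + 1) := by
    rw [h2, Nat.mul_div_cancel' h3]
    rfl
  have h5 : (2 * (n + 2).choose 2 : ℤ) = (n + 2) * (n + 1) := by exact_mod_cast h4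
  linarith

theorem tt_of_ge {d : ℤ} (hd : -2 ≤ d) : 2 * tt d = (d + 1) * (d + 2) := by
  rcases lt_or_ge d 0 with h | h
  · rw [tt_neg h]
    have h1 : d = -1 ∨ d = -2 := by omega
    rcases h1 with rfl | rfl <;> norm_num
  · obtain ⟨n, rfl⟩ := Int.eq_ofNat_of_zero_le h
    exact tt_nat n

/-- Duality on the plane. -/
theorem tt_dual (d : ℤ) : 2 * (tt d + tt (-d - 3)) = (d + 1) * (d + 2) := by
  rcases lt_or_ge d 0 with h | h
  · rw [tt_neg h, zero_add, tt_of_ge (by omega)]
    ring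
  · rw [tt_neg (d := -d - 3) (by omega), add_zero, tt_of_ge (by omega)]

end Vale.Agent.P297Z.Gr
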