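import Vale.Agent.P297Z.Gr.Fam

/-!
# Free resolutions of length one
-/

set_option linter.unusedSectionVars false

namespace Vale.Agent.P297Z.Gr

open MvPolynomial

variable {V : Type} [AddCommGroup V] [Module ℂ V] [Module T V] [IsScalarTower ℂ T V]

theorem csmul_comm (c : ℂ) (t : T) (x : V) : c • t • x = t • c • x := by
  rw [← C_smul, ← C_smul, smul_comm]

/-- The part of degree `m` of the product of the module by the irrelevant ideal. -/
def mm (N : ℤ → Submodule ℂ V) (m : ℤ) : Submodule ℂ V where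
  carrier := {x | ∃ z : Fin 3 → V, (∀ i, z i ∈ N (m - 1)) ∧ x = ∑ i, (X i : T) • z i}
  zero_mem' := ⟨0, fun _ => zero_mem _, by simp⟩
  add_mem' := by
    rintro _ _ ⟨z, h1, rfl⟩ ⟨z', h1', rfl⟩
    exact ⟨z + z', fun i => add_mem (h1 i) (h1' i), by
      simp only [Pi.add_apply, smul_add, Finset.sum_add_distrib]⟩
  smul_mem' := by
    rintro c _ ⟨z, h1, rfl⟩
    exact ⟨c • z, fun i => Submodule.smul_mem _ c (h1 i), by
      simp only [Pi.smul_apply, Finset.smul_sum, csmul_comm]⟩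

theorem smul_mem_mm {N : ℤ → Submodule ℂ V} (hN : Stab N) {d a m : ℤ} (hd : d ≠ 0) {t : T}
    (ht : t ∈ Tz d) {x : V} (hx : x ∈ N a) (hm : a + d = m) : t • x ∈ mm N m := by
  obtain ⟨g, h1, rfl⟩ := exists_X_sum hd ht
  refine ⟨fun i => g i • x, fun i => hN.smul (h1 i) hx (by omega), ?_⟩
  simp only [Finset.sum_smul, mul_smul]

/-- Minimal systems of generators. -/
theorem exists_min {N : ℤ → Submodule ℂ V} (hN : Stab N) (h : FG N) :
    ∃ (κ : Type) (_ : Fintype κ) (b : κ → ℤ) (n : κ → V), (∀ j, n j ∈ N (b j)) ∧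
      (∀ m, ∀ x ∈ N m, ∃ c : κ → ℂ, (∀ j, c j ≠ 0 → b j = m) ∧ x - ∑ j, c j • n j ∈ mm N m) ∧
      ∀ m (c : κ → ℂ), (∀ j, c j ≠ 0 → b j = m) → ∑ j, c j • n j ∈ mm N m → c = 0 := by
  classical
  obtain ⟨ι, _, a, g, hg⟩ := h
  let P : Finset ι → Prop := fun s => ∀ m, ∀ x ∈ N m, ∃ c : ι → ℂ,
    (∀ j, c j ≠ 0 → a j = m ∧ j ∈ s) ∧ x - ∑ j, c j • g j ∈ mm N m
  have hP : P Finset.univ := by
    intro m x hx
    obtain ⟨v, hv, rfl⟩ := hg.surj m x hx
    refine ⟨fun j => if a j = m then coeff 0 (v j) else 0, fun j hj => ⟨?_, Finset.mem_univ _⟩, ?_⟩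
    · by_contra h
      exact hj (if_neg h)
    · rw [lc_apply, ← Finset.sum_sub_distrib]
      refine sum_mem fun j _ => ?_
      have h1 := mem_Fr.1 hv j
      beta_reduce
      split_ifs with h
      · rw [h, sub_self] at h1
        rw [← C_smul, ← eq_C h1, sub_self]
        exact zero_mem _
      · rw [zero_smul, sub_zero]
        exact smul_mem_mm hN (by omega) h1 (hg.mem j) (by ring)
  have hex : ∃ k, ∃ s : Finset ι, s.card = k ∧ P s := ⟨_, _, rfl, hP⟩
  obtain ⟨s, hs, hPs⟩ := Nat.find_spec hex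
  have hsum : ∀ c : ι → ℂ, (∀ j, c j ≠ 0 → j ∈ s) → ∑ j : s, c j • g j = ∑ j, c j • g j := by
    intro c hc
    rw [Finset.sum_coe_sort s (fun j => c j • g j)]
    refine Finset.sum_subset (Finset.subset_univ _) fun j _ hj => ?_
    have h1 : c j = 0 := by
      by_contra h
      exact hj (hc j h)
    rw [h1, zero_smul]
  refine ⟨s, inferInstance, fun j => a j, fun j => g j, fun j => hg.mem j, fun m x hx => ?_,
    fun m c hc hcm => ?_⟩
  · obtain ⟨c, h1, h2⟩ := hPs m x hx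
    refine ⟨fun j => c j, fun j hj => (h1 j hj).1, ?_⟩
    rw [hsum c fun j hj => (h1 j hj).2]
    exact h2
  · by_contra hne
    obtain ⟨j0, hj0⟩ := Function.ne_iff.1 hne
    let c0 : ι → ℂ := fun j => if h : j ∈ s then c ⟨j, h⟩ else 0
    have hc0 : ∀ j : s, c0 j = c j := fun j => dif_pos j.2
    have hc1 : ∀ j, c0 j ≠ 0 → a j = m ∧ j ∈ s := by
      intro j hj
      by_cases h : j ∈ s
      · exact ⟨hc ⟨j, h⟩ (by rwa [← hc0]), h⟩
      · exact absurd (dif_neg h) hj
    have hc2 : ∑ j, c0 j • g j ∈ mm N m := by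
      rw [← hsum c0 fun j hj => (hc1 j hj).2]
      simpa only [hc0] using hcm
    have hj1 : c0 j0 ≠ 0 := by
      rw [hc0]
      exact hj0
    have hP' : P (s.erase j0) := by
      intro m' x hx
      obtain ⟨c', h1, h2⟩ := hPs m' x hx
      by_cases hm : m' = m
      · subst hm
        refine ⟨c' - (c' j0 / c0 j0) • c0, fun j hj => ?_, ?_⟩
        · have h3 : j ≠ j0 := by
            rintro rfl
            apply hj
            simp only [Pi.sub_apply, Pi.smul_apply, smul_eq_mul]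
            rw [div_mul_cancel₀ _ hj1, sub_self]
          have h4 : c' j ≠ 0 ∨ c0 j ≠ 0 := by
            by_contra hcon
            push Not at hcon
            apply hj
            simp only [Pi.sub_apply, Pi.smul_apply, smul_eq_mul, hcon.1, hcon.2, mul_zero, sub_zero]
          rcases h4 with h4 | h4
          · exact ⟨(h1 j h4).1, Finset.mem_erase.2 ⟨h3, (h1 j h4).2⟩⟩
          · exact ⟨(hc1 j h4).1, Finset.mem_erase.2 ⟨h3, (hc1 j h4).2⟩⟩
        · have h3 : x - ∑ j, (c' - (c' j0 / c0 j0) • c0) j • g j =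
              (x - ∑ j, c' j • g j) + (c' j0 / c0 j0) • ∑ j, c0 j • g j := by
            simp only [Pi.sub_apply, Pi.smul_apply, smul_eq_mul, sub_smul, mul_smul,
              Finset.sum_sub_distrib, Finset.smul_sum]
            abel
          rw [h3]
          exact add_mem h2 (Submodule.smul_mem _ _ hc2)
      · refine ⟨c', fun j hj => ⟨(h1 j hj).1, Finset.mem_erase.2 ⟨?_, (h1 j hj).2⟩⟩, h2⟩
        rintro rfl
        exact hm ((h1 _ hj).1.symm.trans (hc1 _ hj1).1)
    have h5 := Nat.find_min' hex ⟨_, rfl, hP'⟩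
    rw [← hs, Finset.card_erase_of_mem j0.2] at h5
    have h6 : 0 < s.card := Finset.card_pos.2 ⟨_, j0.2⟩
    omega

/-- `l₁, l₂` is a regular sequence of linear forms. -/
structure Reg2 (M : ℤ → Submodule ℂ V) (l₁ l₂ : T) : Prop where
  r0 : ∀ m, ∀ x ∈ M m, l₁ • x = 0 → x = 0
  r1 : ∀ m, ∀ x ∈ M m, ∀ x' ∈ M m, l₂ • x = l₁ • x' → ∃ w ∈ M (m - 1), x = l₁ • w

theorem Reg2.syz {M : ℤ → Submodule ℂ V} (hM : Stab M) {l₁ l₂ : T} (h : Reg2 M l₁ l₂)
    (h2 : l₂ ∈ Tz 1) {m : ℤ} {p q : V} (hp : p ∈ M m) (hq : q ∈ M m)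
    (hpq : l₁ • p + l₂ • q = 0) : ∃ r ∈ M (m - 1), q = l₁ • r ∧ p = -(l₂ • r) := by
  obtain ⟨r, hr, h1⟩ := h.r1 m q hq (-p) (neg_mem hp) (by
    rw [smul_neg]
    exact eq_neg_of_add_eq_zero_right hpq)
  refine ⟨r, hr, h1, eq_neg_of_add_eq_zero_left (h.r0 m _
    (add_mem hp (hM.smul h2 hr (by ring))) ?_)⟩
  rw [smul_add, smul_comm l₁ l₂ r, ← h1, hpq]

theorem int_ind {p : ℤ → Prop} (lo : ℤ) (h0 : ∀ m < lo, p m) (h1 : ∀ m, p (m - 1) → p m) (m : ℤ) :
    p m := by
  have h : ∀ k : ℕ, p (lo - 1 + k) := by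
    intro k
    induction k with
    | zero => exact h0 _ (by omega)
    | succ k ih =>
      apply h1
      rw [show lo - 1 + ((k + 1 : ℕ) : ℤ) - 1 = lo - 1 + k by push_cast; ring]
      exact ih
  rcases lt_or_ge m lo with h2 | h2
  · exact h0 m h2
  · have h3 := h (m - lo + 1).toNat
    rwa [show lo - 1 + ((m - lo + 1).toNat : ℤ) = m by omega] at h3

/-- A finitely generated graded module of depth three is free. -/
theorem exists_free {N : ℤ → Submodule ℂ V} (hN : Stab N) (h : FG N) (h01 : Reg2 N (X 0) (X 1))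
    (h2 : ∀ m, ∀ x ∈ N m, ∀ a ∈ N m, ∀ b ∈ N m, (X 2 : T) • x = (X 0 : T) • a + (X 1 : T) • b →
      ∃ p ∈ N (m - 1), ∃ q ∈ N (m - 1), x = (X 0 : T) • p + (X 1 : T) • q) :
    ∃ (κ : Type) (_ : Fintype κ) (b : κ → ℤ) (n : κ → V), Gen N b n ∧
      ∀ m, ∀ w ∈ Fr b m, lc n w = 0 → w = 0 := by
  classical
  obtain ⟨lo, hlo⟩ := h.exists_bot
  obtain ⟨κ, _, b, n, hn, hspan, hind⟩ := exists_min hN h
  have hC : ∀ {m : ℤ} {c : κ → ℂ}, (∀ j, c j ≠ 0 → b j = m) → (fun j => C (c j) : κ → T) ∈ Fr b m := by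
    intro m c hc
    rw [mem_Fr]
    intro j
    by_cases h1 : c j = 0
    · rw [h1, C_0]
      exact zero_mem _
    · rw [hc j h1, sub_self]
      exact C_mem _
  have hC' : ∀ c : κ → ℂ, lc n (fun j => C (c j)) = ∑ j, c j • n j := by
    intro c
    rw [lc_apply]
    simp only [C_smul]
  have hgen : ∀ m, ∀ x ∈ N m, ∃ v ∈ Fr b m, lc n v = x := by
    refine int_ind lo (fun m hm x hx => ⟨0, zero_mem _, ?_⟩) fun m ih x hx => ?_
    · rw [hlo m hm, Submodule.mem_bot] at hx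
      rw [hx, map_zero]
    · obtain ⟨c, h1, z, h3, h4⟩ := hspan m x hx
      choose w hw hw' using fun i => ih (z i) (h3 i)
      refine ⟨(fun j => C (c j)) + ∑ i, (X i : T) • w i, add_mem (hC h1) (sum_mem fun i _ =>
        (stab_Fr b).smul (X_mem i) (hw i) (by ring)), ?_⟩
      rw [map_add, map_sum, hC']
      simp only [map_smul, hw']
      rw [← h4]
      abel
  refine ⟨κ, inferInstance, b, n, ⟨hn, hgen⟩, ?_⟩
  obtain ⟨lo', hlo'⟩ := (fg_Fr b).exists_bot
  refine int_ind lo' (fun m hm w hw _ => ?_) fun m ih w hw hw0 => ?_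
  · rwa [hlo' m hm, Submodule.mem_bot] at hw
  · let c : κ → ℂ := fun j => if b j = m then coeff 0 (w j) else 0
    have hc : ∀ j, c j ≠ 0 → b j = m := by
      intro j hj
      by_contra h
      exact hj (if_neg h)
    have h3 : ∀ j, ∃ t : Fin 3 → T, (∀ i, t i ∈ Tz (m - 1 - b j)) ∧
        w j - C (c j) = ∑ i, X i * t i := by
      intro j
      have h1 := mem_Fr.1 hw j
      by_cases h : b j = m
      · rw [h, sub_self] at h1
        refine ⟨0, fun _ => zero_mem _, ?_⟩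
        simp only [c, if_pos h, ← eq_C h1, sub_self, Pi.zero_apply, mul_zero,
          Finset.sum_const_zero]
      · obtain ⟨t, ht, h4⟩ := exists_X_sum (by omega) h1
        refine ⟨t, fun i => ?_, ?_⟩
        · rw [show m - 1 - b j = m - b j - 1 by ring]
          exact ht i
        · simp only [c, if_neg h, C_0, sub_zero, h4]
    choose t ht ht' using h3
    let u : Fin 3 → κ → T := fun i j => t j i
    have hu : ∀ i, u i ∈ Fr b (m - 1) := fun i => mem_Fr.2 fun j => ht j i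
    have h4 : w = (fun j => C (c j)) + ∑ i, (X i : T) • u i := by
      funext j
      rw [Pi.add_apply, Finset.sum_apply]
      simp only [Pi.smul_apply, smul_eq_mul, u]
      rw [← ht' j]
      ring
    have hN1 : ∀ i, lc n (u i) ∈ N (m - 1) := fun i => lc_mem hN hn (hu i)
    have h5 : ∑ j, c j • n j + ∑ i, (X i : T) • lc n (u i) = 0 := by
      rw [← hw0, h4, map_add, map_sum, hC']
      simp only [map_smul]
    have h6 : c = 0 := hind m c hc (by
      rw [eq_neg_of_add_eq_zero_left h5]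
      exact neg_mem ⟨_, hN1, rfl⟩)
    rw [h6] at h5 h4
    simp only [Pi.zero_apply, zero_smul, Finset.sum_const_zero, zero_add, Fin.sum_univ_three] at h5
    obtain ⟨p, hp, q, hq, h7⟩ := h2 (m - 1) _ (hN1 2) _ (neg_mem (hN1 0)) _ (neg_mem (hN1 1)) (by
      rw [smul_neg, smul_neg, ← neg_add]
      exact eq_neg_of_add_eq_zero_right h5)
    obtain ⟨r, hr, h8, h9⟩ := h01.syz hN (X_mem 1) (m := m - 1)
      (p := lc n (u 0) + (X 2 : T) • p) (q := lc n (u 1) + (X 2 : T) • q)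
      (add_mem (hN1 0) (hN.smul (X_mem 2) hp (by ring)))
      (add_mem (hN1 1) (hN.smul (X_mem 2) hq (by ring))) (by
        rw [← h5, h7]
        simp only [smul_add]
        rw [smul_comm (X 0 : T) (X 2 : T) p, smul_comm (X 1 : T) (X 2 : T) q]
        abel)
    obtain ⟨P, hP, rfl⟩ := hgen _ p hp
    obtain ⟨Q, hQ, rfl⟩ := hgen _ q hq
    obtain ⟨R, hR, rfl⟩ := hgen _ r hr
    have hF : ∀ (i : Fin 3) {z : κ → T}, z ∈ Fr b (m - 1 - 1) → (X i : T) • z ∈ Fr b (m - 1) :=
      fun i z hz => (stab_Fr b).smul (X_mem i) hz (by ring)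
    have e0 : u 0 + (X 2 : T) • P + (X 1 : T) • R = 0 :=
      ih _ (add_mem (add_mem (hu 0) (hF 2 hP)) (hF 1 hR)) (by
        simp only [map_add, map_smul]
        rw [h9, neg_add_cancel])
    have e1 : u 1 + (X 2 : T) • Q - (X 0 : T) • R = 0 :=
      ih _ (sub_mem (add_mem (hu 1) (hF 2 hQ)) (hF 0 hR)) (by
        simp only [map_add, map_sub, map_smul]
        rw [h8, sub_self])
    have e2 : u 2 - ((X 0 : T) • P + (X 1 : T) • Q) = 0 :=
      ih _ (sub_mem (hu 2) (add_mem (hF 0 hP) (hF 1 hQ))) (by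
        simp only [map_add, map_sub, map_smul]
        rw [h7, sub_self])
    rw [h4]
    funext j
    have f0 := congrFun e0 j
    have f1 := congrFun e1 j
    have f2 := congrFun e2 j
    simp only [Pi.add_apply, Pi.sub_apply, Pi.smul_apply, smul_eq_mul, Pi.zero_apply] at f0 f1 f2
    simp only [Pi.add_apply, Fin.sum_univ_three, Pi.smul_apply, smul_eq_mul, Pi.zero_apply, C_0]
    linear_combination X 0 * f0 + X 1 * f1 + X 2 * f2

/-- A graded free resolution `0 → F₁ → F₀ → M → 0`. -/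
structure Res (M : ℤ → Submodule ℂ V) where
  /-- the generators -/
  ι : Type
  /-- the relations -/
  κ : Type
  [fι : Fintype ι]
  [fκ : Fintype κ]
  /-- the degrees of the generators -/
  a : ι → ℤ
  /-- the degrees of the relations -/
  b : κ → ℤ
  /-- the generators -/
  g : ι → V
  /-- the relations -/
  n : κ → ι → T
  gen : Gen M a g
  hn : ∀ j, n j ∈ Fr a (b j)
  zero : ∀ j, lc g (n j) = 0
  exact : ∀ m, ∀ v ∈ Fr a m, lc g v = 0 → ∃ w ∈ Fr b m, lc n w = v
  inj : Function.Injective (lc n)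

attribute [instance] Res.fι Res.fκ

theorem eq_zero_of_cmpF {ι : Type} (a : ι → ℤ) {w : ι → T} (h : ∀ m, cmpF a m w = 0) : w = 0 := by
  funext i
  ext s
  have h1 := congrArg (coeff s) (congrFun (h (dg s + a i)) i)
  rw [cmpF_apply, coeff_cmp, if_pos (by ring)] at h1
  exact h1

/-- A finitely generated graded module of depth two has a free resolution of length one. -/
theorem exists_res {M : ℤ → Submodule ℂ V} (hM : Stab M) (h : FG M) (h01 : Reg2 M (X 0) (X 1)) :
    Nonempty (Res M) := by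
  obtain ⟨ι, _, a, g, hg⟩ := h
  let N : ℤ → Submodule ℂ (ι → T) := fun m => Fr a m ⊓ LinearMap.ker ((lc g).restrictScalars ℂ)
  have hN : ∀ {m v}, v ∈ N m ↔ v ∈ Fr a m ∧ lc g v = 0 := Iff.rfl
  have hF : ∀ (i : Fin 3) {m : ℤ} {z : ι → T}, z ∈ Fr a (m - 1) → (X i : T) • z ∈ Fr a m :=
    fun i m z hz => (stab_Fr a).smul (X_mem i) hz (by ring)
  have hst : Stab N := fun i m x hx =>
    hN.2 ⟨stab_Fr a i m x (hN.1 hx).1, by rw [map_smul, (hN.1 hx).2, smul_zero]⟩
  obtain ⟨κ, _, b, n, hn, hinj⟩ := exists_free hst ((fg_Fr a).sub fun m => inf_le_left)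
    ⟨fun m x _ h0 => by
      funext i
      exact (mul_eq_zero.1 (congrFun h0 i)).resolve_left (X_ne_zero 0),
    fun m x hx x' hx' h0 => by
      choose w hw hw' using fun i => reg_one (mem_Fr.1 (hN.1 hx).1 i) (congrFun h0 i)
      have h1 : w ∈ Fr a (m - 1) := mem_Fr.2 fun i => by
        rw [show m - 1 - a i = m - a i - 1 by ring]
        exact hw i
      have h2 : x = (X 0 : T) • w := funext hw'
      refine ⟨w, hN.2 ⟨h1, h01.r0 _ _ (lc_mem hM hg.mem h1) ?_⟩, h2⟩
      rw [← map_smul, ← h2, (hN.1 hx).2]⟩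
    (fun m x hx y hy z hz h0 => by
      choose p hp q hq hpq using fun i => reg_two (mem_Fr.1 (hN.1 hx).1 i) (congrFun h0 i)
      have h1 : p ∈ Fr a (m - 1) := mem_Fr.2 fun i => by
        rw [show m - 1 - a i = m - a i - 1 by ring]
        exact hp i
      have h1' : q ∈ Fr a (m - 1) := mem_Fr.2 fun i => by
        rw [show m - 1 - a i = m - a i - 1 by ring]
        exact hq i
      have h2 : x = (X 0 : T) • p + (X 1 : T) • q := funext hpq
      obtain ⟨r, hr, h3, h4⟩ := h01.syz hM (X_mem 1) (lc_mem hM hg.mem h1) (lc_mem hM hg.mem h1')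
        (by rw [← map_smul, ← map_smul, ← map_add, ← h2, (hN.1 hx).2])
      obtain ⟨ρ, hρ, rfl⟩ := hg.surj _ r hr
      refine ⟨p + (X 1 : T) • ρ, hN.2 ⟨add_mem h1 (hF 1 hρ), ?_⟩, q - (X 0 : T) • ρ,
        hN.2 ⟨sub_mem h1' (hF 0 hρ), ?_⟩, ?_⟩
      · rw [map_add, map_smul, h4, neg_add_cancel]
      · rw [map_sub, map_smul, h3, sub_self]
      · rw [h2, smul_add, smul_sub, smul_comm (X 0 : T) (X 1 : T) ρ]
        abel)
  refine ⟨⟨ι, κ, a, b, g, n, hg, fun j => (hN.1 (hn.mem j)).1, fun j => (hN.1 (hn.mem j)).2,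
    fun m v hv h0 => hn.surj m v (hN.2 ⟨hv, h0⟩), ?_⟩⟩
  rw [injective_iff_map_eq_zero]
  intro w hw
  refine eq_zero_of_cmpF b fun m => hinj m _ (cmpF_mem _ _ _) ?_
  rw [← cmpF_lc fun j => (hN.1 (hn.mem j)).1, hw, map_zero]

end Vale.Agent.P297Z.Gr
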